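import Mathlib

/-!
P355, part (A), the degenerate case of the dichotomy. In the gauge of a column pair the other four
columns are six rows `X l : Fin 4 → ℂ` with `X = n (conj X)` for a symmetric unitary `n`. If the
weights `F` make `n F n` diagonal and `n k k * F k = 0` for all `k`, then every column `c` with
`F c ≠ 0` has vanishing three-against-three sum.
-/

open scoped BigOperators ComplexConjugate
open Finset

namespace Vale.Agent.P355.Dich.Degen

/-- a function of a two-valued variable is affine in it -/
lemma sum_two_valued {g : ℂ} (hg : g ≠ 0) (w y : Fin 6 → ℂ) (hw : ∀ l, w l = g ∨ w l = -g)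
    (h0 : ∑ l, y l = 0) (h1 : ∑ l, w l * y l = 0) (P : ℂ → ℂ) : ∑ l, P (w l) * y l = 0 := by
  have h : ∀ l, P (w l) * y l
      = (P g + P (-g)) / 2 * y l + (P g - P (-g)) / (2 * g) * (w l * y l) := by
    intro l
    rcases hw l with e | e <;> rw [e] <;> field_simp <;> ring
  rw [Finset.sum_congr rfl fun l _ => h l, sum_add_distrib, ← mul_sum, ← mul_sum, h0, h1]
  ring

/-- three unimodular numbers with sum zero have squares with sum zero -/
lemma sq_three {a b c : ℂ} (ha : ‖a‖ = 1) (hb : ‖b‖ = 1) (hc : ‖c‖ = 1) (h : a + b + c = 0) :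
    a ^ 2 + b ^ 2 + c ^ 2 = 0 := by
  have key : ∀ z : ℂ, ‖z‖ = 1 → z * conj z = 1 := fun z hz => by
    rw [Complex.mul_conj, Complex.normSq_eq_norm_sq, hz]; norm_num
  have h' := congrArg (starRingEnd ℂ) h
  simp only [map_add, map_zero] at h'
  have e : b * c + a * c + a * b = 0 := by
    linear_combination a * b * c * h' - b * c * key a ha - a * c * key b hb - a * b * key c hc
  linear_combination (a + b + c) * h - 2 * e

/-- the squares inherit both vanishing sums when the two values are taken three times each -/
lemma sum_sq_two_valued {g : ℂ} (hg : g ≠ 0) (w y : Fin 6 → ℂ) (hw : ∀ l, w l = g ∨ w l = -g)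
    (hw0 : ∑ l, w l = 0) (hy : ∀ l, ‖y l‖ = 1) (h0 : ∑ l, y l = 0) (h1 : ∑ l, w l * y l = 0) :
    ∑ l, w l * y l ^ 2 = 0 := by
  classical
  have hne : -g ≠ g := fun e => hg (by linear_combination (-1 / 2 : ℂ) * e)
  have side : ∀ s : ℂ, (s = g ∨ s = -g) → ∑ l ∈ univ.filter (fun l => w l = s), y l ^ 2 = 0 := by
    intro s hs
    have hcard : (univ.filter fun l => w l = s).card = 3 := by
      have e1 : ∀ l, w l = if w l = g then g else -g := fun l => by
        rcases hw l with e | e
        · rw [if_pos e, e]
        · rw [if_neg (by rw [e]; exact hne), e]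
      rw [Finset.sum_congr rfl fun l _ => e1 l, Finset.sum_ite, sum_const, sum_const,
        nsmul_eq_mul, nsmul_eq_mul] at hw0
      have h6 := Finset.card_filter_add_card_filter_not (s := (univ : Finset (Fin 6))) (fun l => w l = g)
      simp only [card_univ, Fintype.card_fin] at h6
      have hk : ((univ.filter fun l => w l = g).card : ℂ)
          = ((univ.filter fun l => ¬w l = g).card : ℂ) :=
        mul_right_cancel₀ hg (by linear_combination hw0)
      have hk' := Nat.cast_injective hk
      rcases hs with rfl | rfl
      · omega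
      · have : (univ.filter fun l => w l = -g) = univ.filter fun l => ¬w l = g := by
          refine filter_congr fun l _ => ⟨fun e => by rw [e]; exact hne, fun e => ?_⟩
          exact (hw l).resolve_left e
        rw [this]; omega
    have hsum : ∑ l ∈ univ.filter (fun l => w l = s), y l = 0 := by
      rw [sum_filter]
      have := sum_two_valued hg w y hw h0 h1 fun z => if z = s then 1 else 0
      simpa [ite_mul] using this
    obtain ⟨a, b, c, hab, hac, hbc, hS⟩ := card_eq_three.1 hcard
    rw [hS] at hsum ⊢
    simp [hab, hac, hbc] at hsum ⊢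
    linear_combination sq_three (hy a) (hy b) (hy c) (by linear_combination hsum)
  have h : ∀ l, w l * y l ^ 2
      = g * (if w l = g then y l ^ 2 else 0) + -g * (if w l = -g then y l ^ 2 else 0) := by
    intro l
    rcases hw l with e | e <;> simp [e, hne, hne.symm]
  rw [Finset.sum_congr rfl fun l _ => h l, sum_add_distrib, ← mul_sum, ← mul_sum, ← sum_filter,
    ← sum_filter, side g (Or.inl rfl), side (-g) (Or.inr rfl), mul_zero, mul_zero, add_zero]

/-- a unimodular combination of two unimodular numbers with unit coefficient vector -/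
lemma quotient_sq {p q u v z : ℂ} (hu : ‖u‖ = 1) (hv : ‖v‖ = 1) (hz : ‖z‖ = 1)
    (hpq : p * conj p + q * conj q = 1) (he : z = p * conj u + q * conj v) :
    p * conj q + conj p * q * (u * conj v) ^ 2 = 0 := by
  have key : ∀ w : ℂ, ‖w‖ = 1 → w * conj w = 1 := fun w hw => by
    rw [Complex.mul_conj, Complex.normSq_eq_norm_sq, hw]; norm_num
  have h1 := key z hz
  rw [he] at h1
  simp only [map_add, map_mul, Complex.conj_conj] at h1
  linear_combination (u * conj v) * (h1 - hpq - p * conj p * key u hu - q * conj q * key v hv)
    - p * conj q * (u * conj u * key v hv + key u hu)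

/-- a variable with a fixed square takes at most two opposite values -/
lemma two_values (w : Fin 6 → ℂ) {G : ℂ} (h : ∀ l, w l ^ 2 = G) :
    ∀ l, w l = w 0 ∨ w l = -w 0 :=
  fun l => sq_eq_sq_iff_eq_or_eq_neg.1 ((h l).trans (h 0).symm)

lemma exhaust : ∀ c d e f : Fin 4, c ≠ d → c ≠ e → c ≠ f → d ≠ e → d ≠ f → e ≠ f →
    (univ : Finset (Fin 4)) = {c, d, e, f} := by decide

section
variable (n : Fin 4 → Fin 4 → ℂ) (X : Fin 6 → Fin 4 → ℂ) (F : Fin 4 → ℂ)

lemma sum4 (φ : Fin 4 → ℂ) {c d e f : Fin 4} (hcd : c ≠ d) (hce : c ≠ e) (hcf : c ≠ f) (hde : d ≠ e)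
    (hdf : d ≠ f) (hef : e ≠ f) : ∑ k, φ k = φ c + (φ d + (φ e + φ f)) := by
  rw [exhaust c d e f hcd hce hcf hde hdf hef]
  rw [sum_insert (by simp [hcd, hce, hcf]), sum_insert (by simp [hde, hdf]), sum_insert (by simp [hef]),
    sum_singleton]

/-- the degenerate branch: a column with nonzero weight has vanishing three-against-three sum -/
theorem sum_eq_zero_of_degen (hsym : ∀ i j, n i j = n j i)
    (huni : ∀ i j, ∑ k, n i k * conj (n j k) = if i = j then 1 else 0)
    (hX : ∀ l i, ‖X l i‖ = 1) (horth : ∀ i j, i ≠ j → ∑ l, X l i * conj (X l j) = 0)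
    (hrel : ∀ l i, X l i = ∑ k, n i k * conj (X l k))
    (hmean : ∀ i, n i i = 0 → ∑ l, X l i ^ 2 = 0)
    (hkey : ∀ i j, i ≠ j → ∑ k, n i k * n j k * F k = 0)
    (h0 : ∀ k, n k k * F k = 0)
    (c d e f : Fin 4) (hcd : c ≠ d) (hce : c ≠ e) (hcf : c ≠ f) (hde : d ≠ e) (hdf : d ≠ f) (hef : e ≠ f)
    (hF : F c ≠ 0) :
    ∑ l, X l c * (conj (X l d) * conj (X l e) * conj (X l f)) = 0 := by
  -- the weights along an entry of `n`
  set Λ : Fin 4 → ℂ := fun i => ∑ k, n i k * n i k * F k with hΛ
  have hswap : ∀ i j, n i j * F j = conj (n i j) * Λ i := by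
    intro i j
    have e1 : ∑ m, (∑ k, n i k * n m k * F k) * conj (n m j) = Λ i * conj (n i j) := by
      rw [sum_eq_single i (fun m _ hm => by rw [hkey i m (Ne.symm hm), zero_mul])
        (fun h => absurd (mem_univ i) h)]
    have e2 : ∑ m, (∑ k, n i k * n m k * F k) * conj (n m j) = n i j * F j := by
      simp only [sum_mul]
      rw [sum_comm]
      have : ∀ k, ∑ m, n i k * n m k * F k * conj (n m j) = n i k * F k * if k = j then 1 else 0 := by
        intro k
        rw [← huni k j, mul_sum]
        refine sum_congr rfl fun m _ => ?_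
        rw [hsym k m, hsym j m]; ring
      rw [sum_congr rfl fun k _ => this k]
      simp
    rw [← e2, e1, mul_comm]
  have hnorm : ∀ i j, n i j ≠ 0 → ‖F j‖ = ‖Λ i‖ := by
    intro i j h
    have := congrArg (fun z => ‖z‖) (hswap i j)
    simp only [norm_mul, Complex.norm_conj] at this
    exact mul_left_cancel₀ (norm_ne_zero_iff.2 h) this
  have hc0 : n c c = 0 := (mul_eq_zero.1 (h0 c)).resolve_right hF
  -- neighbours of `c` and their neighbours have zero diagonal
  have hnb : ∀ j, n c j ≠ 0 → n j j = 0 ∧ ∀ k, n j k ≠ 0 → n k k = 0 := by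
    intro j hj
    have hL : ‖F c‖ = ‖Λ j‖ := hnorm j c (by rwa [hsym])
    have hLne : ‖Λ j‖ ≠ 0 := hL ▸ norm_ne_zero_iff.2 hF
    have hk : ∀ k, n j k ≠ 0 → n k k = 0 := fun k hk =>
      (mul_eq_zero.1 (h0 k)).resolve_right fun hz => hLne (by rw [← hnorm j k hk, hz, norm_zero])
    exact ⟨by_contra fun hjj => hjj (hk j hjj), hk⟩
  have hmc : ∀ l i, conj (X l i) * X l i = 1 := fun l i => by
    rw [mul_comm, Complex.mul_conj, Complex.normSq_eq_norm_sq, hX l i]; norm_num
  have hu : ∀ i, ∑ k, n i k * conj (n i k) = 1 := fun i => by rw [huni]; simp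
  -- one neighbour
  have one : ∀ d' e' f' : Fin 4, c ≠ d' → c ≠ e' → c ≠ f' → d' ≠ e' → d' ≠ f' → e' ≠ f' →
      n c e' = 0 → n c f' = 0 →
      ∑ l, X l c * (conj (X l d') * conj (X l e') * conj (X l f')) = 0 := by
    intro d e f hcd hce hcf hde hdf hef he hf
    have S := fun φ => sum4 φ hcd hce hcf hde hdf hef
    have hq : n c d * conj (n c d) = 1 := by
      have := hu c
      rw [S] at this
      simpa [hc0, he, hf] using this
    have hqne : n c d ≠ 0 := fun h => by simp [h] at hq
    obtain ⟨hdd, -⟩ := hnb d hqne
    have hxc : ∀ l, X l c = n c d * conj (X l d) := fun l => by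
      refine (hrel l c).trans ?_; rw [S]; simp [hc0, he, hf]
    have hed : n e d = 0 := by
      have := huni c e
      rw [S] at this
      simpa [hce, hc0, he, hf, hqne, hsym e c] using this
    have hrow : n e e * conj (n e e) + n e f * conj (n e f) = 1 := by
      have := hu e
      rw [S] at this
      simpa [hsym e c, he, hed] using this
    have hxe : ∀ l, X l e = n e e * conj (X l e) + n e f * conj (X l f) := fun l => by
      refine (hrel l e).trans ?_; rw [S]; simp [hsym e c, he, hed]
    have hS : ∀ l, X l c * (conj (X l d) * conj (X l e) * conj (X l f))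
        = conj (n c d) * (X l c ^ 2 * (conj (X l e) * conj (X l f))) := by
      intro l
      rw [hxc l]
      linear_combination (-(n c d * conj (X l d) * conj (X l d) * conj (X l e) * conj (X l f))) * hq
    rw [sum_congr rfl fun l _ => hS l, ← mul_sum]
    refine mul_eq_zero_of_right _ ?_
    by_cases hα : n e e = 0
    · have hb : ∀ l, conj (X l e) * conj (X l f) = conj (n e f) := fun l => by
        rw [hxe l, hα]
        simp only [zero_mul, zero_add, map_mul, Complex.conj_conj]
        linear_combination conj (n e f) * hmc l f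
      rw [sum_congr rfl fun l _ => by rw [hb l], ← sum_mul, hmean c hc0, zero_mul]
    · -- two-valued quotient
      obtain ⟨G, hG⟩ : ∃ G, ∀ l, (X l e * conj (X l f)) ^ 2 = G := by
        by_cases hβ : n e f = 0
        · refine ⟨n e e * conj (n f f), fun l => ?_⟩
          have hfd : n f d = 0 := by
            have := huni c f
            rw [S] at this
            simpa [hcf, hc0, he, hf, hqne, hsym f c] using this
          have hxf : X l f = n f f * conj (X l f) := by
            refine (hrel l f).trans ?_; rw [S]; simp [hsym f c, hf, hfd, hsym f e, hβ]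
          have hxe' : X l e = n e e * conj (X l e) := by
            have := hxe l
            simpa [hβ] using this
          have hxf' : conj (X l f) = conj (n f f) * X l f := by
            have := congrArg (starRingEnd ℂ) hxf
            simpa using this
          calc (X l e * conj (X l f)) ^ 2
              = (X l e * (n e e * conj (X l e))) * (conj (X l f) * (conj (n f f) * X l f)) := by
                rw [← hxe', ← hxf']; ring
            _ = _ := by linear_combination (n e e * conj (n f f)) * (hmc l e * (conj (X l f) * X l f) + hmc l f)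
        · refine ⟨-(n e e * conj (n e f)) / (conj (n e e) * n e f), fun l => ?_⟩
          rw [eq_div_iff (by simp [hα, hβ])]
          linear_combination quotient_sq (hX l e) (hX l f) (hX l e) hrow (hxe l)
      have hg0 : X 0 e * conj (X 0 f) ≠ 0 := by
        intro h
        simpa [hX] using congrArg (fun z => ‖z‖) h
      have hy : ∀ l, X l c ^ 2 * (conj (X l e) * conj (X l f))
          = X l e * conj (X l f) * (X l c * conj (X l e)) ^ 2 := by
        intro l
        linear_combination (-(X l c ^ 2 * conj (X l e) * conj (X l f))) * hmc l e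
      rw [sum_congr rfl fun l _ => hy l]
      refine sum_sq_two_valued hg0 _ _ (two_values _ hG) (horth e f hef)
        (fun l => by simp [hX]) (horth c e hce) ?_
      rw [← horth c f hcf]
      refine sum_congr rfl fun l _ => ?_
      linear_combination (X l c * conj (X l f)) * hmc l e
  -- two neighbours
  have two : ∀ d' e' f' : Fin 4, c ≠ d' → c ≠ e' → c ≠ f' → d' ≠ e' → d' ≠ f' → e' ≠ f' →
      n c d' ≠ 0 → n c e' ≠ 0 → n c f' = 0 →
      ∑ l, X l c * (conj (X l d') * conj (X l e') * conj (X l f')) = 0 := by
    intro d e f hcd hce hcf hde hdf hef hd he hf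
    have S := fun φ => sum4 φ hcd hce hcf hde hdf hef
    obtain ⟨hdd, hd2⟩ := hnb d hd
    obtain ⟨hee, -⟩ := hnb e he
    have hde0 : n d e = 0 := by
      have := huni c d
      rw [S] at this
      simpa [hcd, hc0, hf, hdd, he] using this
    have hdf0 : n d f ≠ 0 := by
      intro h
      have := huni d e
      rw [S] at this
      simp [hde, hdd, hde0, h, hsym d c, hsym e c, hd, he] at this
    have hff : n f f = 0 := hd2 f hdf0
    have hrow : n c d * conj (n c d) + n c e * conj (n c e) = 1 := by
      have := hu c
      rw [S] at this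
      simpa [hc0, hf] using this
    have hxc : ∀ l, X l c = n c d * conj (X l d) + n c e * conj (X l e) := fun l => by
      refine (hrel l c).trans ?_; rw [S]; simp [hc0, hf]
    have hxf : ∀ l, X l f = n f d * conj (X l d) + n f e * conj (X l e) := fun l => by
      refine (hrel l f).trans ?_; rw [S]; simp [hsym f c, hf, hff]
    have hG : ∀ l, (X l d * conj (X l e)) ^ 2
        = -(n c d * conj (n c e)) / (conj (n c d) * n c e) := by
      intro l
      rw [eq_div_iff (by simp [hd, he])]
      linear_combination quotient_sq (hX l d) (hX l e) (hX l c) hrow (hxc l)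
    have hg0 : X 0 d * conj (X 0 e) ≠ 0 := by
      intro h
      simpa [hX] using congrArg (fun z => ‖z‖) h
    have h1 : ∑ l, X l d * conj (X l e) * (X l c * conj (X l d)) = 0 := by
      rw [← horth c e hce]
      refine sum_congr rfl fun l _ => ?_
      linear_combination (X l c * conj (X l e)) * hmc l d
    have := sum_two_valued hg0 _ _ (two_values _ hG) (horth c d hcd) h1
      (fun z => z * conj (n f d + n f e * z))
    rw [← this]
    refine sum_congr rfl fun l _ => ?_
    rw [hxf l]
    simp only [map_add, map_mul, Complex.conj_conj]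
    linear_combination (-(conj (n f e) * X l c * conj (X l d) * conj (X l e) * X l e)) * hmc l d
  -- case split
  by_cases hd : n c d = 0 <;> by_cases he : n c e = 0 <;> by_cases hf : n c f = 0
  · have := hu c
    rw [sum4 _ hcd hce hcf hde hdf hef] at this
    simp [hc0, hd, he, hf] at this
  · rw [← one f d e hcf hcd hce hdf.symm hef.symm hde hd he]
    exact sum_congr rfl fun l _ => by ring
  · rw [← one e d f hce hcd hcf hde.symm hef hdf hd hf]
    exact sum_congr rfl fun l _ => by ring
  · rw [← two e f d hce hcf hcd hef hde.symm hdf.symm he hf hd]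
    exact sum_congr rfl fun l _ => by ring
  · exact one d e f hcd hce hcf hde hdf hef he hf
  · rw [← two d f e hcd hcf hce hdf hde hef.symm hd hf he]
    exact sum_congr rfl fun l _ => by ring
  · exact two d e f hcd hce hcf hde hdf hef hd he hf
  · exfalso
    have S := fun φ => sum4 φ hcd hce hcf hde hdf hef
    obtain ⟨hdd, -⟩ := hnb d hd
    obtain ⟨hee, -⟩ := hnb e he
    obtain ⟨hff, -⟩ := hnb f hf
    have a := huni c d
    have b := huni c e
    have g := huni c f
    have r := hu c
    have s := hu d
    rw [S] at a b g r s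
    simp [hcd, hce, hcf, hc0, hdd, hee, hff, hsym e d, hsym f d, hsym f e] at a b g r s
    have hde0 : conj (n d e) = 0 := by
      have : 2 * (n c d * n c e * conj (n d e)) = 0 := by
        linear_combination n c d * a + n c e * b - n c f * g
      simpa [hd, he] using this
    have hdf0 : conj (n d f) = 0 := by
      have : n c f * conj (n d f) = 0 := by linear_combination a - n c e * hde0
      simpa [hf] using this
    rw [hsym d c] at s
    simp [map_eq_zero] at hde0 hdf0
    simp [hde0, hdf0] at s
    have : n c e * conj (n c e) + n c f * conj (n c f) = 0 := by linear_combination r - s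
    rw [Complex.mul_conj, Complex.mul_conj, ← Complex.ofReal_add] at this
    have hpos : 0 < Complex.normSq (n c e) := Complex.normSq_pos.2 he
    have := (Complex.ofReal_eq_zero.1 this)
    nlinarith [Complex.normSq_nonneg (n c f)]

end

end Vale.Agent.P355.Dich.Degen
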