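import Vale.Agent.P355.Dich.Core
import Vale.Agent.P355.Dich.Degen

/-!
P355, part (A): for one gauged column pair either all four three-against-three sums vanish or none
of them does, and then all four diagonal second moments are nonzero.
-/

open scoped BigOperators ComplexConjugate
open Finset

namespace Vale.Agent.P355.Dich

variable {n : Fin 4 → Fin 4 → ℂ} {x : Fin 6 → Fin 4 → ℂ}

/-- the second moments of a gauged pair form a unitary matrix -/
lemma Sys.unitary (h : Sys n x fun l k => conj (x l k)) (i j : Fin 4) :
    ∑ k, n i k * conj (n j k) = if i = j then 1 else 0 := by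
  have hm : ∀ k, ∑ l, conj (x l k) * conj (x l j) = 6 * conj (n j k) := by
    intro k
    have := congrArg (starRingEnd ℂ) (h.xx j k)
    simp only [map_sum, map_mul, map_ofNat] at this
    rw [← this]
    exact sum_congr rfl fun l _ => mul_comm _ _
  have e : ∑ l, x l i * conj (x l j) = 6 * ∑ k, n i k * conj (n j k) := by
    rw [sum_congr rfl fun l _ => by rw [h.lin l i, sum_mul], sum_comm, mul_sum]
    refine sum_congr rfl fun k _ => ?_
    simp only [mul_assoc, ← mul_sum, hm]
    ring
  split_ifs with hij
  · subst hij
    have : ∑ l, x l i * conj (x l i) = 6 := by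
      rw [sum_congr rfl fun l _ => h.inv l i]; simp
    rw [this] at e
    linear_combination (-1 / 6 : ℂ) * e
  · have : ∑ l, x l i * conj (x l j) = 0 := h.xz i j hij
    rw [this] at e
    linear_combination (-1 / 6 : ℂ) * e

/-- all four sums vanish, or none does and the diagonal has no zero -/
theorem Sys.all_or_none (h : Sys n x fun l k => conj (x l k)) :
    (∀ k, F x (fun l k => conj (x l k)) k = 0) ∨
      ∀ k, n k k ≠ 0 ∧ F x (fun l k => conj (x l k)) k ≠ 0 := by
  set F' := F x fun l k => conj (x l k) with hF'
  by_cases hz : ∃ k, n k k * F' k = 0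
  · left
    obtain ⟨k₀, hk₀⟩ := hz
    have h0 : ∀ k, n k k * F' k = 0 := fun k => by
      rw [h.kLaw k, ← h.kLaw k₀, hk₀]
    intro c
    by_contra hc
    obtain ⟨d, e, f, hcd, hce, hcf, hde, hdf, hef⟩ : ∃ d e f : Fin 4,
        c ≠ d ∧ c ≠ e ∧ c ≠ f ∧ d ≠ e ∧ d ≠ f ∧ e ≠ f := by clear hc; revert c; decide
    have hX : ∀ l i, ‖x l i‖ = 1 := fun l i => by
      have := congrArg (fun z => ‖z‖) (h.inv l i)
      simp only [norm_mul, Complex.norm_conj, norm_one] at this
      nlinarith [norm_nonneg (x l i)]
    have hS := Degen.sum_eq_zero_of_degen n x F' h.symm h.unitary hX (fun i j hij => h.xz i j hij)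
      h.lin (fun i hi => by simp [pow_two, h.xx, hi]) (fun i j hij => h.core hij) h0
      c d e f hcd hce hcf hde hdf hef hc
    apply hc
    have := congrArg (starRingEnd ℂ) hS
    simp only [map_sum, map_mul, map_zero, Complex.conj_conj] at this
    rw [← this]
    refine sum_congr rfl fun l _ => ?_
    rw [show (∏ i, x l i) = x l c * (x l d * (x l e * x l f)) by
      rw [Degen.exhaust c d e f hcd hce hcf hde hdf hef]
      simp [hcd, hce, hcf, hde, hdf, hef]]
    linear_combination (x l d * x l e * x l f * conj (x l c)) * h.inv l c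
  · right
    push Not at hz
    exact fun k => mul_ne_zero_iff.1 (hz k)

end Vale.Agent.P355.Dich
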