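import Mathlib

/-
P355 (A): six by six complex Hadamard matrices, the four-column sums `colQ`, the three-against-three
sums `colF`.
-/

open scoped BigOperators ComplexConjugate
open Finset

namespace Vale.Agent.P355.Dich

/-- complex Hadamard matrix of order six -/
structure Had (h : Fin 6 → Fin 6 → ℂ) : Prop where
  unimod : ∀ l k, ‖h l k‖ = 1
  row : ∀ l m, l ≠ m → ∑ k, h l k * conj (h m k) = 0
  col : ∀ k k', k ≠ k' → ∑ l, h l k * conj (h l k') = 0

/-- two columns against two columns -/
def colQ (h : Fin 6 → Fin 6 → ℂ) (a b c d : Fin 6) : ℂ :=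
  ∑ l, h l a * h l b * conj (h l c) * conj (h l d)

/-- three columns against three columns -/
def colF (h : Fin 6 → Fin 6 → ℂ) (a b c d e f : Fin 6) : ℂ :=
  ∑ l, h l a * h l b * h l c * conj (h l d) * conj (h l e) * conj (h l f)

/-- six distinct columns -/
def Six (a b c d e f : Fin 6) : Prop := Function.Injective ![a, b, c, d, e, f]

end Vale.Agent.P355.Dich
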