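import Vale.Agent.P355.Dich.Core
import Vale.Agent.P355.Dich.Defs

/-
P355 (A): from two columns e 0, e 1 of a complex Hadamard matrix of order six to the system `Sys`
on the other four columns e 2, ..., e 5.
-/

open scoped BigOperators ComplexConjugate
open Finset

namespace Vale.Agent.P355.Dich

/-- one of the four columns outside the gauge pair -/
def col (e : Equiv.Perm (Fin 6)) (k : Fin 4) : Fin 6 := e k.succ.succ

/-- the symmetric matrix Q(ab;ij)/6 of the pair -/
noncomputable def gN (h : Fin 6 → Fin 6 → ℂ) (e : Equiv.Perm (Fin 6)) (i j : Fin 4) : ℂ :=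
  (1 / 6 : ℂ) * ∑ l, h l (e 0) * h l (e 1) * (conj (h l (col e i)) * conj (h l (col e j)))

/-- the three-against-three sum of the pair and one further column -/
noncomputable def gF (h : Fin 6 → Fin 6 → ℂ) (e : Equiv.Perm (Fin 6)) (k : Fin 4) : ℂ :=
  ∑ l, h l (e 0) * h l (e 1) *
    ((∏ j, conj (h l (col e j))) * h l (col e k) ^ 2)

variable {h : Fin 6 → Fin 6 → ℂ}

lemma col_injective (e : Equiv.Perm (Fin 6)) : Function.Injective (col e) :=
  fun _ _ he => Fin.succ_injective _ (Fin.succ_injective _ (e.injective he))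

lemma mul_conj_of_norm {u : ℂ} (hu : ‖u‖ = 1) : u * conj u = 1 := by
  rw [Complex.mul_conj', hu]; norm_num

lemma gF_eq (hu : ∀ l k, ‖h l k‖ = 1) (e : Equiv.Perm (Fin 6)) (k : Fin 4) :
    gF h e k = ∑ l, h l (e 0) * h l (e 1) * h l (col e k) *
      ∏ j ∈ univ.erase k, conj (h l (col e j)) := by
  refine Finset.sum_congr rfl fun l _ => ?_
  rw [← Finset.mul_prod_erase univ _ (Finset.mem_univ k)]
  linear_combination (h l (e 0) * h l (e 1) * h l (col e k) *
    ∏ j ∈ univ.erase k, conj (h l (col e j))) * mul_conj_of_norm (hu l (col e k))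

/-- expansion of the pair against the conjugate of a further column -/
lemma pair_expand (hu : ∀ l k, ‖h l k‖ = 1)
    (hr : ∀ l m, l ≠ m → ∑ k, h l k * conj (h m k) = 0)
    (hc : ∀ k k', k ≠ k' → ∑ l, h l k * conj (h l k') = 0)
    (e : Equiv.Perm (Fin 6)) (k : Fin 4) (l : Fin 6) :
    h l (e 0) * h l (e 1) * conj (h l (col e k)) = ∑ j, gN h e k j * h l (col e j) := by
  have key : ∀ V : Fin 6 → ℂ, 6 * V l = ∑ p, (∑ m, V m * conj (h m (e p))) * h l (e p) := by
    intro V
    rw [Equiv.sum_comp e fun p => (∑ m, V m * conj (h m p)) * h l p]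
    simp only [Finset.sum_mul]
    rw [Finset.sum_comm, Finset.sum_eq_single l ?_ (by simp)]
    · rw [Finset.sum_congr rfl fun p _ => show V l * conj (h l p) * h l p = V l by
        linear_combination V l * mul_conj_of_norm (hu l p)]
      simp
    · intro m _ hm
      rw [Finset.sum_congr rfl fun p _ => show V m * conj (h m p) * h l p
          = V m * (h l p * conj (h m p)) by ring, ← Finset.mul_sum, hr l m (Ne.symm hm), mul_zero]
  have h0 : ∑ m, h m (e 0) * h m (e 1) * conj (h m (col e k)) * conj (h m (e 0)) = 0 := by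
    rw [← hc (e 1) (col e k) (fun he => absurd (congrArg Fin.val (e.injective he)) (by simp))]
    exact Finset.sum_congr rfl fun m _ => by
      linear_combination (h m (e 1) * conj (h m (col e k))) * mul_conj_of_norm (hu m (e 0))
  have h1 : ∑ m, h m (e 0) * h m (e 1) * conj (h m (col e k)) * conj (h m (e 1)) = 0 := by
    rw [← hc (e 0) (col e k) (fun he => absurd (congrArg Fin.val (e.injective he)) (by simp))]
    exact Finset.sum_congr rfl fun m _ => by
      linear_combination (h m (e 0) * conj (h m (col e k))) * mul_conj_of_norm (hu m (e 1))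
  have := key fun m => h m (e 0) * h m (e 1) * conj (h m (col e k))
  have split : ∀ G : Fin 6 → ℂ, ∑ p, G p = G 0 + (G 1 + ∑ i : Fin 4, G i.succ.succ) := fun G => by
    rw [Fin.sum_univ_succ, Fin.sum_univ_succ]; rfl
  rw [split] at this
  simp only [col] at this h0 h1
  rw [h0, h1] at this
  simp only [zero_mul, zero_add] at this
  have hj : ∀ j, ∑ m, h m (e 0) * h m (e 1) * conj (h m (e k.succ.succ)) * conj (h m (e j.succ.succ))
      = 6 * gN h e k j := fun j => by
    simp only [gN, col]
    rw [← mul_assoc]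
    norm_num
    exact Finset.sum_congr rfl fun m _ => by ring
  simp only [hj, mul_assoc (6 : ℂ), ← Finset.mul_sum] at this
  exact mul_left_cancel₀ (by norm_num) this

/-- **Gauge**: every column pair of a complex Hadamard matrix gives a system -/
theorem gauge (hu : ∀ l k, ‖h l k‖ = 1)
    (hr : ∀ l m, l ≠ m → ∑ k, h l k * conj (h m k) = 0)
    (hc : ∀ k k', k ≠ k' → ∑ l, h l k * conj (h l k') = 0)
    (e : Equiv.Perm (Fin 6)) :
    ∃ X : Fin 6 → Fin 4 → ℂ,
      Sys (gN h e) X (fun l k => conj (X l k)) ∧
      (∀ l k, ‖X l k‖ = 1) ∧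
      (∀ l i j, X l i * conj (X l j) = conj (h l (col e i)) * h l (col e j)) ∧
      (∀ k, F X (fun l k => conj (X l k)) k = gF h e k) ∧
      ∀ i j, ∑ k, gN h e i k * conj (gN h e j k) = if i = j then 1 else 0 := by
  choose s hs using fun l => IsAlgClosed.exists_pow_nat_eq (h l (e 0) * h l (e 1))
    (by norm_num : 0 < 2)
  have hs1 : ∀ l, ‖s l‖ = 1 := fun l => by
    have e2 : ‖s l‖ ^ 2 = 1 ^ 2 := by rw [← norm_pow, hs, norm_mul, hu, hu]; norm_num
    exact (pow_left_inj₀ (norm_nonneg _) (by norm_num) two_ne_zero).1 e2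
  let X : Fin 6 → Fin 4 → ℂ := fun l k => s l * conj (h l (col e k))
  have hX : ∀ l k, ‖X l k‖ = 1 := fun l k => by simp [X, hs1, hu]
  have hq : ∀ l i j, X l i * conj (X l j) = conj (h l (col e i)) * h l (col e j) := fun l i j => by
    simp only [X, map_mul, Complex.conj_conj]
    linear_combination (conj (h l (col e i)) * h l (col e j)) * mul_conj_of_norm (hs1 l)
  have hlin : ∀ l k, X l k = ∑ j, gN h e k j * conj (X l j) := fun l k => by
    have p := pair_expand hu hr hc e k l
    simp only [X, map_mul, Complex.conj_conj]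
    calc s l * conj (h l (col e k))
        = conj (s l) * (h l (e 0) * h l (e 1) * conj (h l (col e k))) := by
          linear_combination (-(s l) * conj (h l (col e k))) * mul_conj_of_norm (hs1 l)
            + (conj (s l) * conj (h l (col e k))) * hs l
      _ = _ := by rw [p, Finset.mul_sum]; exact Finset.sum_congr rfl fun j _ => by ring
  have hxx : ∀ i j, ∑ l, X l i * X l j = 6 * gN h e i j := fun i j => by
    rw [gN, ← mul_assoc]
    norm_num
    exact Finset.sum_congr rfl fun l _ => by
      simp only [X]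
      linear_combination (conj (h l (col e i)) * conj (h l (col e j))) * hs l
  have hxz : ∀ i j, i ≠ j → ∑ l, X l i * conj (X l j) = 0 := fun i j hij => by
    rw [← hc (col e j) (col e i) fun he => hij (col_injective e he).symm]
    exact Finset.sum_congr rfl fun l _ => by rw [hq, mul_comm]
  have hdist : ∀ l l', l ≠ l' → ∀ ε : ℂ, (ε = 1 ∨ ε = -1) →
      ¬ ∀ k, conj (X l k) = ε * conj (X l' k) := by
    intro l l' hl ε hε he
    have hne : ‖ε‖ = 1 := by rcases hε with rfl | rfl <;> simp
    have hck : ∀ k, h l (col e k) * conj (h l' (col e k)) = ε * (s l * conj (s l')) := by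
      intro k
      have := he k
      simp only [X, map_mul, Complex.conj_conj] at this
      linear_combination (s l * conj (h l' (col e k))) * this
        - (h l (col e k) * conj (h l' (col e k))) * mul_conj_of_norm (hs1 l)
        + (s l * ε * conj (s l')) * mul_conj_of_norm (hu l' (col e k))
    have := hr l l' hl
    rw [← Equiv.sum_comp e, Fin.sum_univ_succ, Fin.sum_univ_succ] at this
    simp only [Fin.succ_zero_eq_one] at this
    simp only [col] at hck
    rw [Finset.sum_congr rfl fun i _ => hck i, Finset.sum_const, Finset.card_univ,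
      Fintype.card_fin, nsmul_eq_mul, Nat.cast_ofNat] at this
    have hn : ‖4 * (ε * (s l * conj (s l')))‖ = 4 := by simp [hne, hs1]
    have : ‖4 * (ε * (s l * conj (s l')))‖ ≤ 2 := by
      rw [show 4 * (ε * (s l * conj (s l'))) = -(h l (e 0) * conj (h l' (e 0))
        + h l (e 1) * conj (h l' (e 1))) by linear_combination this, norm_neg]
      refine (norm_add_le _ _).trans ?_
      simp [hu]
      norm_num
    linarith
  have hsymm : ∀ i j, gN h e i j = gN h e j i := fun i j => by
    simp only [gN]; congr 1; exact Finset.sum_congr rfl fun l _ => by ring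
  refine ⟨X, ⟨hsymm, fun l k => mul_conj_of_norm (hX l k), hlin, hxx, hxz, fun l l' hl => ?_⟩,
    hX, hq, fun k => ?_, fun i j => ?_⟩
  · refine ⟨fun he => hdist l l' hl 1 (Or.inl rfl) fun k => by simpa using congrFun he k,
      fun he => hdist l l' hl (-1) (Or.inr rfl) fun k => by simpa using congrFun he k⟩
  · refine Finset.sum_congr rfl fun l _ => ?_
    simp only [X, Finset.prod_mul_distrib, Finset.prod_const, Finset.card_univ, Fintype.card_fin,
      map_mul, Complex.conj_conj]
    linear_combination ((s l) ^ 2 * conj (s l) ^ 2 * (∏ j, conj (h l (col e j)))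
        * h l (col e k) ^ 2) * hs l
      + ((s l * conj (s l) + 1) * (∏ j, conj (h l (col e j))) * h l (col e k) ^ 2
        * (h l (e 0) * h l (e 1))) * mul_conj_of_norm (hs1 l)
  · have hz : ∀ k, ∑ l, conj (X l k) * conj (X l j) = 6 * conj (gN h e j k) := fun k => by
      have := congrArg conj (hxx k j)
      rw [map_sum, map_mul, map_ofNat, hsymm k j] at this
      simpa using this
    have t : ∑ l, X l i * conj (X l j) = 6 * ∑ k, gN h e i k * conj (gN h e j k) := by
      conv_lhs => enter [2, l]; rw [hlin l i, Finset.sum_mul]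
      rw [Finset.sum_comm, Finset.mul_sum]
      refine Finset.sum_congr rfl fun k _ => ?_
      simp only [mul_assoc, ← Finset.mul_sum, hz]
      ring
    split_ifs with hij
    · subst hij
      simp [mul_conj_of_norm (hX _ _)] at t
      linear_combination t
    · rw [hxz i j hij] at t
      linear_combination (-1 / 6 : ℂ) * t

lemma gN_eq_colQ (e : Equiv.Perm (Fin 6)) (i j : Fin 4) :
    gN h e i j = colQ h (e 0) (e 1) (col e i) (col e j) / 6 := by
  rw [gN, colQ, one_div, inv_mul_eq_div]
  exact congrArg (· / 6) (Finset.sum_congr rfl fun l _ => by ring)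

lemma gF_eq_colF (hu : ∀ l k, ‖h l k‖ = 1) (e : Equiv.Perm (Fin 6)) :
    gF h e 0 = colF h (e 0) (e 1) (e 2) (e 3) (e 4) (e 5) ∧
    gF h e 1 = colF h (e 0) (e 1) (e 3) (e 2) (e 4) (e 5) ∧
    gF h e 2 = colF h (e 0) (e 1) (e 4) (e 2) (e 3) (e 5) ∧
    gF h e 3 = colF h (e 0) (e 1) (e 5) (e 2) (e 3) (e 4) := by
  have c0 : col e 0 = e 2 := rfl
  have c1 : col e 1 = e 3 := rfl
  have c2 : col e 2 = e 4 := rfl
  have c3 : col e 3 = e 5 := rfl
  refine ⟨?_, ?_, ?_, ?_⟩ <;>
    · simp only [gF, colF, Fin.prod_univ_four, c0, c1, c2, c3]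
      refine Finset.sum_congr rfl fun l _ => ?_
      have := mul_conj_of_norm (hu l (e 2)); have := mul_conj_of_norm (hu l (e 3))
      have := mul_conj_of_norm (hu l (e 4)); have := mul_conj_of_norm (hu l (e 5))
      grind

/-- the gauge theorem for `Had` -/
theorem Had.gauge (hh : Had h) (e : Equiv.Perm (Fin 6)) :
    ∃ X : Fin 6 → Fin 4 → ℂ,
      Sys (gN h e) X (fun l k => conj (X l k)) ∧
      (∀ l k, ‖X l k‖ = 1) ∧
      (∀ l i j, X l i * conj (X l j) = conj (h l (Dich.col e i)) * h l (Dich.col e j)) ∧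
      (∀ k, F X (fun l k => conj (X l k)) k = gF h e k) ∧
      ∀ i j, ∑ k, gN h e i k * conj (gN h e j k) = if i = j then 1 else 0 :=
  Dich.gauge hh.unimod hh.row hh.col e

/-- the core identity in the notation of the matrix -/
theorem Had.core (hh : Had h) (e : Equiv.Perm (Fin 6)) {i j : Fin 4} (hij : i ≠ j) :
    ∑ k, gN h e i k * gN h e j k * gF h e k = 0 := by
  obtain ⟨X, hS, -, -, hF, -⟩ := hh.gauge e
  simpa only [hF] using hS.core hij

end Vale.Agent.P355.Dich
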