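import Vale.Agent.P355.Dich.AllOrNone
import Vale.Agent.P355.Dich.Gauge
import Vale.Agent.P355.Cert.IdentCT

/-
P355 (A): connectivity. Either all three-against-three sums over the columns vanish (and then the
transpose satisfies `IdentCT.CT`), or no sum vanishes and every diagonal entry of every pair is nonzero.
-/

open scoped BigOperators ComplexConjugate
open Finset

namespace Vale.Agent.P355.Dich

variable {h : Fin 6 → Fin 6 → ℂ}

/-- the sum attached to a set of columns -/
noncomputable def tF (h : Fin 6 → Fin 6 → ℂ) (T : Finset (Fin 6)) : ℂ :=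
  ∑ l, ∏ i, if i ∈ T then h l i else conj (h l i)

lemma col_ne (e : Equiv.Perm (Fin 6)) (k : Fin 4) : col e k ≠ e 0 ∧ col e k ≠ e 1 :=
  ⟨fun he => absurd (congrArg Fin.val (e.injective he)) (by simp),
    fun he => absurd (congrArg Fin.val (e.injective he)) (by simp)⟩

lemma gF_eq_tF (hu : ∀ l k, ‖h l k‖ = 1) (e : Equiv.Perm (Fin 6)) (k : Fin 4) :
    gF h e k = tF h {e 0, e 1, col e k} := by
  rw [gF_eq hu, tF]
  refine Finset.sum_congr rfl fun l _ => ?_
  rw [← Equiv.prod_comp e, Fin.prod_univ_succ, Fin.prod_univ_succ,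
    ← Finset.mul_prod_erase univ _ (Finset.mem_univ k)]
  have hj : ∀ j ∈ univ.erase k, (if e (Fin.succ (Fin.succ j)) ∈ ({e 0, e 1, col e k} : Finset _)
      then h l (e (Fin.succ (Fin.succ j))) else conj (h l (e (Fin.succ (Fin.succ j)))))
        = conj (h l (col e j)) := fun j hj => by
    rw [if_neg]
    · rfl
    · change col e j ∉ _
      simp [(col_ne e j).1, (col_ne e j).2, (col_injective e).eq_iff, Finset.ne_of_mem_erase hj]
  rw [Finset.prod_congr rfl hj, if_pos (by simp), if_pos (by simp), if_pos (by simp [col])]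
  rw [show e (Fin.succ 0) = e 1 from rfl]
  simp only [col]
  ring

lemma exists_perm {a b : Fin 6} (hab : a ≠ b) : ∃ e : Equiv.Perm (Fin 6), e 0 = a ∧ e 1 = b := by
  refine ⟨(Equiv.swap 0 a).trans (Equiv.swap (Equiv.swap 0 a 1) b), ?_, ?_⟩
  · simp only [Equiv.trans_apply, Equiv.swap_apply_left]
    refine Equiv.swap_apply_of_ne_of_ne (fun he => ?_) hab
    have := (Equiv.swap 0 a).injective ((Equiv.swap_apply_left 0 a).trans he)
    exact absurd this (by decide)
  · simp only [Equiv.trans_apply, Equiv.swap_apply_left]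

lemma exists_col (e : Equiv.Perm (Fin 6)) {c : Fin 6} (h0 : c ≠ e 0) (h1 : c ≠ e 1) :
    ∃ k, col e k = c := by
  obtain ⟨i, rfl⟩ := e.surjective c
  have : i ≠ 0 ∧ i ≠ 1 := ⟨fun hi => h0 (by rw [hi]), fun hi => h1 (by rw [hi])⟩
  have : ∀ i : Fin 6, i ≠ 0 ∧ i ≠ 1 → ∃ k : Fin 4, k.succ.succ = i := by decide
  obtain ⟨k, hk⟩ := this i ‹_›
  exact ⟨k, by rw [col, hk]⟩

/-- one nonzero sum makes the pair good -/
lemma Had.pair_good (hh : Had h) (e : Equiv.Perm (Fin 6)) {k : Fin 4} (hk : gF h e k ≠ 0) :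
    ∀ j, gN h e j j ≠ 0 ∧ gF h e j ≠ 0 := by
  obtain ⟨X, hS, -, -, hF, -⟩ := hh.gauge e
  rcases hS.all_or_none with h0 | h1
  · exact absurd (by rw [← hF]; exact h0 k) hk
  · exact fun j => ⟨(h1 j).1, hF j ▸ (h1 j).2⟩

/-- replacing one column of a triple keeps the sum nonzero -/
lemma Had.step (hh : Had h) {T : Finset (Fin 6)} (hT : T.card = 3) (h0 : tF h T ≠ 0)
    {x y : Fin 6} (hy : y ∈ T) (hx : x ∉ T) : tF h (insert x (T.erase y)) ≠ 0 := by
  obtain ⟨a, b, hab, he⟩ := Finset.card_eq_two.1 (show (T.erase y).card = 2 by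
    rw [Finset.card_erase_of_mem hy, hT])
  have hT' : T = {a, b, y} := by
    conv_lhs => rw [← Finset.insert_erase hy, he]
    ext i; simp; tauto
  have hm : ∀ i, i = a ∨ i = b → i ∈ T ∧ i ≠ y := fun i hi => by
    have : i ∈ T.erase y := by rw [he]; simpa using hi
    exact ⟨Finset.mem_of_mem_erase this, Finset.ne_of_mem_erase this⟩
  obtain ⟨e, e0, e1⟩ := exists_perm hab
  obtain ⟨k, hk⟩ := exists_col e (c := y) (e0 ▸ ((hm a (Or.inl rfl)).2).symm)
    (e1 ▸ ((hm b (Or.inr rfl)).2).symm)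
  obtain ⟨j, hj⟩ := exists_col e (c := x) (e0 ▸ fun hxa => hx (hxa ▸ (hm a (Or.inl rfl)).1))
    (e1 ▸ fun hxb => hx (hxb ▸ (hm b (Or.inr rfl)).1))
  have hk' : gF h e k ≠ 0 := by rwa [gF_eq_tF hh.unimod, e0, e1, hk, ← hT']
  have := (hh.pair_good e hk' j).2
  rw [gF_eq_tF hh.unimod, e0, e1, hj] at this
  rwa [show insert x (T.erase y) = {a, b, x} by rw [he]; ext i; simp; tauto]

/-- all triples are linked -/
lemma Had.all_ne_zero (hh : Had h) {T : Finset (Fin 6)} (hT : T.card = 3) (h0 : tF h T ≠ 0)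
    {U : Finset (Fin 6)} (hU : U.card = 3) : tF h U ≠ 0 := by
  obtain ⟨n, hn⟩ : ∃ n, (U \ T).card = n := ⟨_, rfl⟩
  induction n generalizing T with
  | zero =>
    have : U = T := Finset.eq_of_subset_of_card_le
      (Finset.sdiff_eq_empty_iff_subset.1 (Finset.card_eq_zero.1 hn)) (by omega)
    rwa [this]
  | succ n ih =>
    obtain ⟨x, hx⟩ := Finset.card_pos.1 (by omega : 0 < (U \ T).card)
    rw [Finset.mem_sdiff] at hx
    have : (T \ U).card = n + 1 := by rw [Finset.card_sdiff_comm (by omega), hn]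
    obtain ⟨y, hy⟩ := Finset.card_pos.1 (by omega : 0 < (T \ U).card)
    rw [Finset.mem_sdiff] at hy
    refine ih (T := insert x (T.erase y)) ?_ (hh.step hT h0 hy.1 hx.2) ?_
    · rw [Finset.card_insert_of_notMem (fun hh => hx.2 (Finset.mem_of_mem_erase hh)),
        Finset.card_erase_of_mem hy.1]
      omega
    · have e : U \ insert x (T.erase y) = (U \ T).erase x := by
        ext i
        simp only [Finset.mem_sdiff, Finset.mem_insert, Finset.mem_erase]
        by_cases hiy : i = y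
        · subst hiy; simp [hy.2]
        · tauto
      rw [e, Finset.card_erase_of_mem (Finset.mem_sdiff.2 hx), hn]
      omega

/-- all sums zero gives the hypothesis of the certificate -/
lemma CT_of_zero (hu : ∀ l k, ‖h l k‖ = 1) (h0 : ∀ T : Finset (Fin 6), T.card = 3 → tF h T = 0) :
    Cert.IdentCT.CT fun i j => h j i := by
  intro ε hε hs
  let T := univ.filter fun i => ε i = 1
  have hf : ∀ i, ε i = 2 * (if i ∈ T then (1 : ℤ) else 0) - 1 := fun i => by
    rcases hε i with hi | hi <;> simp [T, hi]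
  have hT : T.card = 3 := by
    rw [Finset.sum_congr rfl fun i _ => hf i, Finset.sum_sub_distrib, ← Finset.mul_sum,
      Finset.sum_boole] at hs
    simp at hs
    omega
  refine Eq.trans (Finset.sum_congr rfl fun c _ => Finset.prod_congr rfl fun i _ => ?_) (h0 T hT)
  by_cases hi : i ∈ T
  · rw [if_pos hi, hf i, if_pos hi]; simp
  · rw [if_neg hi, hf i, if_neg hi]
    simp [Complex.inv_eq_conj (hu c i)]

/-- **Connectivity**: all zero, or every pair is good -/
theorem Had.ct_or_good (hh : Had h) :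
    (Cert.IdentCT.CT fun i j => h j i) ∨
      ∀ (e : Equiv.Perm (Fin 6)) (k : Fin 4), gN h e k k ≠ 0 ∧ gF h e k ≠ 0 := by
  by_cases hz : ∀ T : Finset (Fin 6), T.card = 3 → tF h T = 0
  · exact Or.inl (CT_of_zero hh.unimod hz)
  · push Not at hz
    obtain ⟨T, hT, h0⟩ := hz
    refine Or.inr fun e k => hh.pair_good e (k := k) ?_ k
    rw [gF_eq_tF hh.unimod]
    refine hh.all_ne_zero hT h0 (Finset.card_eq_three.2 ⟨e 0, e 1, Dich.col e k, ?_, ?_, ?_, rfl⟩)
    · exact fun he => absurd (e.injective he) (by decide)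
    · exact (col_ne e k).1.symm
    · exact (col_ne e k).2.symm

/-- the same with `colF` -/
lemma colF_ne_zero_of_good (hh : Had h)
    (hg : ∀ (e : Equiv.Perm (Fin 6)) (k : Fin 4), gN h e k k ≠ 0 ∧ gF h e k ≠ 0)
    {a b c d e f : Fin 6} (hs : Six a b c d e f) : colF h a b c d e f ≠ 0 := by
  let σ : Equiv.Perm (Fin 6) := Equiv.ofBijective _ (Finite.injective_iff_bijective.1 hs)
  have := (hg σ 0).2
  rwa [(gF_eq_colF hh.unimod σ).1] at this

end Vale.Agent.P355.Dich
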