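import Mathlib

/-
P355 (A), algebraic core of the dichotomy. After gauging the rows so that two columns are mutually
conjugate, the other four columns x (inverses z) of a complex Hadamard matrix of order six satisfy
x = n z row by row, with n the symmetric matrix of their second moments. Then, with F k the sum of
(x 0 x 1 x 2 x 3) z k ^ 2, one has n k k F k = (a constant) and, for i not j,
  sum_k n i k n j k F k = 0.
-/

open scoped BigOperators
open Finset Matrix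

namespace Vale.Agent.P355.Dich

/-- six rows in four unknowns with their inverses and the matrix of second moments -/
structure Sys (n : Fin 4 → Fin 4 → ℂ) (x z : Fin 6 → Fin 4 → ℂ) : Prop where
  symm : ∀ i j, n i j = n j i
  inv : ∀ l k, x l k * z l k = 1
  lin : ∀ l k, x l k = ∑ j, n k j * z l j
  xx : ∀ i j, ∑ l, x l i * x l j = 6 * n i j
  xz : ∀ i j, i ≠ j → ∑ l, x l i * z l j = 0
  dist : ∀ l l', l ≠ l' → z l ≠ z l' ∧ z l ≠ -z l'

variable {n : Fin 4 → Fin 4 → ℂ} {x z : Fin 6 → Fin 4 → ℂ}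

/-- the product of the four columns, summed -/
def Q (x : Fin 6 → Fin 4 → ℂ) : ℂ := ∑ l, ∏ i, x l i

/-- the product with one factor conjugated twice -/
def F (x z : Fin 6 → Fin 4 → ℂ) (k : Fin 4) : ℂ := ∑ l, (∏ i, x l i) * z l k ^ 2

lemma Sys.perm (h : Sys n x z) (σ : Equiv.Perm (Fin 4)) :
    Sys (fun i j => n (σ i) (σ j)) (fun l i => x l (σ i)) (fun l i => z l (σ i)) where
  symm i j := h.symm _ _
  inv l k := h.inv l _
  lin l k := by rw [h.lin l (σ k)]; exact (Equiv.sum_comp σ fun j => n (σ k) j * z l j).symm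
  xx i j := h.xx _ _
  xz i j hij := h.xz _ _ fun e => hij (σ.injective e)
  dist l l' hl := by
    obtain ⟨a, b⟩ := h.dist l l' hl
    refine ⟨fun e => a ?_, fun e => b ?_⟩ <;> funext k <;>
      simpa using congrFun e (σ.symm k)

lemma F_perm (σ : Equiv.Perm (Fin 4)) (k : Fin 4) :
    F (fun l i => x l (σ i)) (fun l i => z l (σ i)) k = F x z (σ k) := by
  simp only [F]
  exact Finset.sum_congr rfl fun l _ => by rw [Equiv.prod_comp σ (fun i => x l i)]

lemma Q_perm (σ : Equiv.Perm (Fin 4)) : Q (fun l i => x l (σ i)) = Q x :=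
  Finset.sum_congr rfl fun l _ => Equiv.prod_comp σ (fun i => x l i)

lemma Sys.lin4 (h : Sys n x z) (l : Fin 6) (k : Fin 4) :
    x l k = n k 0 * z l 0 + n k 1 * z l 1 + n k 2 * z l 2 + n k 3 * z l 3 := by
  rw [h.lin, Fin.sum_univ_four]

lemma Sys.F3 (h : Sys n x z) : F x z 3 = ∑ l, x l 0 * x l 1 * x l 2 * z l 3 := by
  refine Finset.sum_congr rfl fun l _ => ?_
  rw [Fin.prod_univ_four]
  linear_combination (x l 0 * x l 1 * x l 2 * z l 3) * h.inv l 3

lemma Sys.kLaw3 (h : Sys n x z) :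
    n 3 3 * F x z 3 = Q x - 6 * (n 0 3 * n 1 2 + n 1 3 * n 0 2 + n 2 3 * n 0 1) := by
  have e : ∀ l, ∏ i, x l i = n 3 0 * (x l 1 * x l 2) + n 3 1 * (x l 0 * x l 2)
      + n 3 2 * (x l 0 * x l 1) + n 3 3 * (x l 0 * x l 1 * x l 2 * z l 3) := by
    intro l
    rw [Fin.prod_univ_four]
    linear_combination (x l 0 * x l 1 * x l 2) * h.lin4 l 3
      + n 3 0 * x l 1 * x l 2 * h.inv l 0 + n 3 1 * x l 0 * x l 2 * h.inv l 1
      + n 3 2 * x l 0 * x l 1 * h.inv l 2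
  simp only [Q, e, Finset.sum_add_distrib, ← Finset.mul_sum, h.xx, ← h.F3]
  rw [h.symm 3 0, h.symm 3 1, h.symm 3 2]
  ring

/-- the two mixed moments with the pair (2,3) -/
lemma Sys.mix (h : Sys n x z) :
    (n 2 2 * n 3 3 - n 2 3 ^ 2) * ∑ l, x l 0 * x l 1 * z l 2 * z l 3
        = n 3 3 * F x z 3 - 6 * n 2 3 * n 0 1 ∧
    (n 2 2 * n 3 3 - n 2 3 ^ 2) * ∑ l, x l 0 * x l 1 * z l 3 * z l 3
        = 6 * n 2 2 * n 0 1 - n 2 3 * F x z 3 := by
  have r : ∀ l, x l 0 * x l 1 = n 3 0 * (x l 1 * z l 3) + n 3 1 * (x l 0 * z l 3)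
      + n 2 3 * (x l 0 * x l 1 * z l 2 * z l 3) + n 3 3 * (x l 0 * x l 1 * z l 3 * z l 3) := by
    intro l
    rw [h.symm 2 3]
    linear_combination (x l 0 * x l 1 * z l 3) * h.lin4 l 3 - x l 0 * x l 1 * h.inv l 3
      + n 3 0 * x l 1 * z l 3 * h.inv l 0 + n 3 1 * x l 0 * z l 3 * h.inv l 1
  have s : ∀ l, x l 0 * x l 1 * x l 2 * z l 3 = n 2 0 * (x l 1 * z l 3) + n 2 1 * (x l 0 * z l 3)
      + n 2 2 * (x l 0 * x l 1 * z l 2 * z l 3) + n 2 3 * (x l 0 * x l 1 * z l 3 * z l 3) := by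
    intro l
    linear_combination (x l 0 * x l 1 * z l 3) * h.lin4 l 2
      + n 2 0 * x l 1 * z l 3 * h.inv l 0 + n 2 1 * x l 0 * z l 3 * h.inv l 1
  have R := Finset.sum_congr (rfl : (univ : Finset (Fin 6)) = univ) fun l _ => r l
  have S := Finset.sum_congr (rfl : (univ : Finset (Fin 6)) = univ) fun l _ => s l
  rw [← h.F3] at S
  simp only [Finset.sum_add_distrib, ← Finset.mul_sum, h.xx, h.xz 1 3 (by decide),
    h.xz 0 3 (by decide)] at R S
  constructor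
  · linear_combination (-(n 3 3)) * S + n 2 3 * R
  · linear_combination n 2 3 * S - n 2 2 * R

/-- a moment with one repeated column and one conjugated column -/
lemma Sys.cMom (h : Sys n x z) :
    (n 2 2 * n 3 3 - n 2 3 ^ 2) * ∑ l, x l 0 * x l 0 * x l 1 * z l 3
      = n 0 2 * (n 3 3 * F x z 3 - 6 * n 2 3 * n 0 1)
        + n 0 3 * (6 * n 2 2 * n 0 1 - n 2 3 * F x z 3) := by
  have e : ∀ l, x l 0 * x l 0 * x l 1 * z l 3 = n 0 0 * (x l 1 * z l 3)
      + n 0 1 * (x l 0 * z l 3) + n 0 2 * (x l 0 * x l 1 * z l 2 * z l 3)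
      + n 0 3 * (x l 0 * x l 1 * z l 3 * z l 3) := by
    intro l
    linear_combination (x l 0 * x l 1 * z l 3) * h.lin4 l 0
      + n 0 0 * x l 1 * z l 3 * h.inv l 0 + n 0 1 * x l 0 * z l 3 * h.inv l 1
  obtain ⟨a, b⟩ := h.mix
  simp only [e, Finset.sum_add_distrib, ← Finset.mul_sum, h.xz 1 3 (by decide),
    h.xz 0 3 (by decide)]
  linear_combination n 0 2 * a + n 0 3 * b

/-- a fourth moment with one repeated column -/
lemma Sys.tMom (h : Sys n x z) :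
    ∑ l, x l 0 * x l 0 * x l 1 * x l 2
      = 6 * (n 0 0 * n 1 2 + 2 * n 0 1 * n 0 2) + n 0 3 * F x z 3 := by
  have e : ∀ l, x l 0 * x l 0 * x l 1 * x l 2 = n 0 0 * (x l 1 * x l 2)
      + n 0 1 * (x l 0 * x l 2) + n 0 2 * (x l 0 * x l 1)
      + n 0 3 * (x l 0 * x l 1 * x l 2 * z l 3) := by
    intro l
    linear_combination (x l 0 * x l 1 * x l 2) * h.lin4 l 0
      + n 0 0 * x l 1 * x l 2 * h.inv l 0 + n 0 1 * x l 0 * x l 2 * h.inv l 1
      + n 0 2 * x l 0 * x l 1 * h.inv l 2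
  simp only [e, Finset.sum_add_distrib, ← Finset.mul_sum, h.xx, ← h.F3]
  ring

/-- determinant of three by three -/
def d3 (a b c d e f g h i : ℂ) : ℂ :=
  a * e * i - a * f * h - b * d * i + b * f * g + c * d * h - c * e * g

/-- cofactors of the third column -/
def cof (n : Fin 4 → Fin 4 → ℂ) : Fin 4 → ℂ :=
  ![d3 (n 1 0) (n 1 1) (n 1 3) (n 2 0) (n 2 1) (n 2 3) (n 3 0) (n 3 1) (n 3 3),
    -d3 (n 0 0) (n 0 1) (n 0 3) (n 2 0) (n 2 1) (n 2 3) (n 3 0) (n 3 1) (n 3 3),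
    d3 (n 0 0) (n 0 1) (n 0 3) (n 1 0) (n 1 1) (n 1 3) (n 3 0) (n 3 1) (n 3 3),
    -d3 (n 0 0) (n 0 1) (n 0 3) (n 1 0) (n 1 1) (n 1 3) (n 2 0) (n 2 1) (n 2 3)]

/-- determinant of four by four -/
def d4 (n : Fin 4 → Fin 4 → ℂ) : ℂ :=
  n 0 2 * cof n 0 + n 1 2 * cof n 1 + n 2 2 * cof n 2 + n 3 2 * cof n 3

/-- complementary minor -/
def mn (n : Fin 4 → Fin 4 → ℂ) (a b : Fin 4) : ℂ := n a a * n b b - n a b ^ 2

/-- even part of the determinant of n plus a diagonal -/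
def evenPart (n : Fin 4 → Fin 4 → ℂ) (t : Fin 4 → ℂ) : ℂ :=
  d4 n + mn n 2 3 * (t 0 * t 1) + mn n 1 3 * (t 0 * t 2) + mn n 1 2 * (t 0 * t 3)
    + mn n 0 3 * (t 1 * t 2) + mn n 0 2 * (t 1 * t 3) + mn n 0 1 * (t 2 * t 3)
    + t 0 * t 1 * t 2 * t 3

lemma Sys.det_sum (h : Sys n x z) (t : Fin 4 → ℂ) :
    (Matrix.of n + Matrix.diagonal t).det + (Matrix.of n - Matrix.diagonal t).det
      = 2 * evenPart n t := by
  rw [Matrix.det_succ_row_zero, Matrix.det_succ_row_zero]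
  simp only [Fin.sum_univ_four, Matrix.det_fin_three, Matrix.submatrix_apply, Matrix.add_apply,
    Matrix.sub_apply, Matrix.of_apply, Matrix.diagonal_apply]
  simp [Fin.succAbove, evenPart, d4, cof, d3, mn]
  rw [h.symm 1 0, h.symm 2 0, h.symm 3 0, h.symm 2 1, h.symm 3 1, h.symm 3 2]
  ring

lemma Sys.even_zero (h : Sys n x z) {l l' : Fin 6} (hl : l ≠ l') :
    evenPart n (fun k => x l k * x l' k) = 0 := by
  obtain ⟨a, b⟩ := h.dist l l' hl
  have p : (Matrix.of n + Matrix.diagonal fun k => x l k * x l' k).det = 0 := by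
    refine Matrix.exists_mulVec_eq_zero_iff.1 ⟨z l - z l', sub_ne_zero.2 a, ?_⟩
    funext k
    rw [Matrix.add_mulVec, Pi.add_apply, Matrix.mulVec_diagonal]
    simp only [Matrix.mulVec, dotProduct, Matrix.of_apply, Pi.sub_apply, mul_sub,
      Finset.sum_sub_distrib, ← h.lin, Pi.zero_apply]
    linear_combination x l' k * h.inv l k - x l k * h.inv l' k
  have q : (Matrix.of n - Matrix.diagonal fun k => x l k * x l' k).det = 0 := by
    refine Matrix.exists_mulVec_eq_zero_iff.1 ⟨z l + z l', fun e => b (eq_neg_of_add_eq_zero_left e), ?_⟩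
    funext k
    rw [Matrix.sub_mulVec, Pi.sub_apply, Matrix.mulVec_diagonal]
    simp only [Matrix.mulVec, dotProduct, Matrix.of_apply, Pi.add_apply, mul_add,
      Finset.sum_add_distrib, ← h.lin, Pi.zero_apply]
    linear_combination -(x l' k) * h.inv l k - x l k * h.inv l' k
  have := h.det_sum fun k => x l k * x l' k
  rw [p, q] at this
  linear_combination (-1 / 2 : ℂ) * this

/-- the identity on each row -/
lemma Sys.rowId (h : Sys n x z) (l : Fin 6) :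
    (∏ i, x l i) ^ 2 - Q x * (∏ i, x l i) - 5 * d4 n
      + mn n 2 3 * (x l 0 ^ 2 * x l 1 ^ 2 - 6 * n 0 1 * (x l 0 * x l 1))
      + mn n 1 3 * (x l 0 ^ 2 * x l 2 ^ 2 - 6 * n 0 2 * (x l 0 * x l 2))
      + mn n 1 2 * (x l 0 ^ 2 * x l 3 ^ 2 - 6 * n 0 3 * (x l 0 * x l 3))
      + mn n 0 3 * (x l 1 ^ 2 * x l 2 ^ 2 - 6 * n 1 2 * (x l 1 * x l 2))
      + mn n 0 2 * (x l 1 ^ 2 * x l 3 ^ 2 - 6 * n 1 3 * (x l 1 * x l 3))
      + mn n 0 1 * (x l 2 ^ 2 * x l 3 ^ 2 - 6 * n 2 3 * (x l 2 * x l 3)) = 0 := by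
  have e : ∑ l', evenPart n (fun k => x l k * x l' k) = evenPart n (fun k => x l k * x l k) :=
    Finset.sum_eq_single l (fun b _ hb => h.even_zero (Ne.symm hb)) (by simp)
  have p : ∀ i j, ∑ l', x l i * x l' i * (x l j * x l' j) = 6 * n i j * (x l i * x l j) := by
    intro i j
    rw [← h.xx i j, Finset.sum_mul]
    exact Finset.sum_congr rfl fun _ _ => by ring
  have q : ∑ l', x l 0 * x l' 0 * (x l 1 * x l' 1) * (x l 2 * x l' 2) * (x l 3 * x l' 3)
      = Q x * ∏ i, x l i := by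
    rw [Q, Finset.sum_mul]
    exact Finset.sum_congr rfl fun _ _ => by simp only [Fin.prod_univ_four]; ring
  simp only [evenPart, Finset.sum_add_distrib, ← Finset.mul_sum, p, q, Finset.sum_const,
    Finset.card_univ, Fintype.card_fin, nsmul_eq_mul] at e
  rw [Fin.prod_univ_four] at e ⊢
  push_cast at e
  linear_combination -e

/-- the sixth moment for the first pair -/
lemma Sys.sixMom (h : Sys n x z) :
    ∑ l, (∏ i, x l i) * (x l 0 * x l 1) = ∑ k, n 0 k * n 1 k * F x z k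
      + 6 * ((n 0 0 * n 1 1 + n 0 1 * n 1 0) * n 2 3 + (n 0 0 * n 1 2 + n 0 2 * n 1 0) * n 1 3
        + (n 0 0 * n 1 3 + n 0 3 * n 1 0) * n 1 2 + (n 0 1 * n 1 2 + n 0 2 * n 1 1) * n 0 3
        + (n 0 1 * n 1 3 + n 0 3 * n 1 1) * n 0 2 + (n 0 2 * n 1 3 + n 0 3 * n 1 2) * n 0 1) := by
  have e : ∀ l, (∏ i, x l i) * (x l 0 * x l 1)
      = ∑ k, n 0 k * n 1 k * ((∏ i, x l i) * z l k ^ 2)
        + ((n 0 0 * n 1 1 + n 0 1 * n 1 0) * (x l 2 * x l 3)
          + (n 0 0 * n 1 2 + n 0 2 * n 1 0) * (x l 1 * x l 3)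
          + (n 0 0 * n 1 3 + n 0 3 * n 1 0) * (x l 1 * x l 2)
          + (n 0 1 * n 1 2 + n 0 2 * n 1 1) * (x l 0 * x l 3)
          + (n 0 1 * n 1 3 + n 0 3 * n 1 1) * (x l 0 * x l 2)
          + (n 0 2 * n 1 3 + n 0 3 * n 1 2) * (x l 0 * x l 1)) := by
    intro l
    rw [Fin.sum_univ_four, Fin.prod_univ_four]
    have := h.inv l 0; have := h.inv l 1; have := h.inv l 2; have := h.inv l 3
    have := h.lin4 l 0; have := h.lin4 l 1
    grind
  simp only [e, Finset.sum_add_distrib]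
  rw [Finset.sum_comm]
  simp only [← Finset.mul_sum, h.xx, F]
  ring

lemma uMom_poly (n00 n01 n02 n03 n11 n12 n13 n22 n23 n33 a b c e u v w r : ℂ)
    (I0 : a * u = 1) (I1 : b * v = 1) (I2 : c * w = 1) (I3 : e * r = 1)
    (E0 : a = n00 * u + n01 * v + n02 * w + n03 * r)
    (E1 : b = n01 * u + n11 * v + n12 * w + n13 * r)
    (E2 : c = n02 * u + n12 * v + n22 * w + n23 * r)
    (E3 : e = n03 * u + n13 * v + n23 * w + n33 * r) :
    (n22 * n33 - n23 ^ 2) * (a ^ 2 * b ^ 2 * w * r)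
      = a * b * c * e * (a * b)
        - n23 * (n00 * (b * b) + 2 * n01 * (a * b) + n11 * (a * a))
        - n03 * (b * b * a * c) - n13 * (a * a * b * c)
        - n02 * (b * b * a * e - n03 * (b * b) - n13 * (a * b))
        - n12 * (a * a * b * e - n03 * (a * b) - n13 * (a * a)) := by
  linear_combination
    (-(a ^ 2 * b ^ 2) * (e - n03 * u - n13 * v - n23 * w)) * E2
    + (-(a ^ 2 * b ^ 2) * n22 * w) * E3
    + (-c * n03 * a * b ^ 2 - e * n02 * a * b ^ 2 + n02 * n03 * b ^ 2 * (a * u + 1)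
        + (n02 * n13 + n12 * n03) * a * b * (b * v)
        + n23 * (a * b ^ 2 * w * n02 + a * b ^ 2 * r * n03 - n00 * b ^ 2 - n01 * a * b)) * I0
    + (-c * n13 * a ^ 2 * b - e * n12 * a ^ 2 * b + (n02 * n13 + n12 * n03) * a * b
        + n12 * n13 * a ^ 2 * (b * v + 1)
        + n23 * (a ^ 2 * b * w * n12 + a ^ 2 * b * r * n13 - n01 * a * b - n11 * a ^ 2)) * I1
    + (-n23 * a ^ 2 * b ^ 2) * I2 + (-n23 * a ^ 2 * b ^ 2) * I3
    + (-n23 * a * b ^ 2) * E0 + (-n23 * a ^ 2 * b) * E1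

/-- the moment with two conjugated and two repeated columns -/
lemma Sys.uMom (h : Sys n x z) (l : Fin 6) :
    mn n 2 3 * (x l 0 ^ 2 * x l 1 ^ 2 * z l 2 * z l 3)
      = (∏ i, x l i) * (x l 0 * x l 1)
        - n 2 3 * (n 0 0 * (x l 1 * x l 1) + 2 * n 0 1 * (x l 0 * x l 1) + n 1 1 * (x l 0 * x l 0))
        - n 3 0 * (x l 1 * x l 1 * x l 0 * x l 2) - n 3 1 * (x l 0 * x l 0 * x l 1 * x l 2)
        - n 2 0 * (x l 1 * x l 1 * x l 0 * x l 3 - n 3 0 * (x l 1 * x l 1) - n 3 1 * (x l 0 * x l 1))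
        - n 2 1 * (x l 0 * x l 0 * x l 1 * x l 3 - n 3 0 * (x l 0 * x l 1) - n 3 1 * (x l 0 * x l 0)) := by
  have a := h.lin4 l 0
  have b := h.lin4 l 1
  have c := h.lin4 l 2
  have e := h.lin4 l 3
  simp only [mn, Fin.prod_univ_four, h.symm 1 0, h.symm 2 0, h.symm 3 0, h.symm 2 1, h.symm 3 1,
    h.symm 3 2] at a b c e ⊢
  exact uMom_poly _ _ _ _ _ _ _ _ _ _ _ _ _ _ _ _ _ _ (h.inv l 0) (h.inv l 1) (h.inv l 2)
    (h.inv l 3) a b c e

/-- the two conjugated columns times the determinant -/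
lemma Sys.zzMom (h : Sys n x z) : d4 n * ∑ l, z l 2 * z l 3 = 6 * cof n 3 := by
  have u : ∑ l, x l 3 * z l 3 = 6 := by simp [h.inv]
  have e : ∀ k, ∑ l, x l k * z l 3 = n k 0 * ∑ l, z l 0 * z l 3 + n k 1 * ∑ l, z l 1 * z l 3
      + n k 2 * ∑ l, z l 2 * z l 3 + n k 3 * ∑ l, z l 3 * z l 3 := by
    intro k
    simp only [Finset.mul_sum, ← Finset.sum_add_distrib]
    exact Finset.sum_congr rfl fun l _ => by linear_combination z l 3 * h.lin4 l k
  have a := e 0; have b := e 1; have c := e 2; have d := e 3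
  rw [h.xz 0 3 (by decide)] at a
  rw [h.xz 1 3 (by decide)] at b
  rw [h.xz 2 3 (by decide)] at c
  rw [u] at d
  simp only [d4, cof, d3, Matrix.cons_val_zero, Matrix.cons_val_one, Matrix.cons_val]
  linear_combination (norm := (simp only [d3]; ring_nf)) -(d3 (n 1 0) (n 1 1) (n 1 3) (n 2 0) (n 2 1) (n 2 3) (n 3 0) (n 3 1) (n 3 3)) * a
    + d3 (n 0 0) (n 0 1) (n 0 3) (n 2 0) (n 2 1) (n 2 3) (n 3 0) (n 3 1) (n 3 3) * b
    - d3 (n 0 0) (n 0 1) (n 0 3) (n 1 0) (n 1 1) (n 1 3) (n 3 0) (n 3 1) (n 3 3) * c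
    + d3 (n 0 0) (n 0 1) (n 0 3) (n 1 0) (n 1 1) (n 1 3) (n 2 0) (n 2 1) (n 2 3) * d

/-- the core identity for the first pair -/
theorem Sys.core01 (h : Sys n x z) : ∑ k, n 0 k * n 1 k * F x z k = 0 := by
  have A : ∀ l, (∏ i, x l i) * (x l 0 * x l 1) - Q x * (x l 0 * x l 1)
      - 5 * d4 n * (z l 2 * z l 3)
      + mn n 2 3 * (x l 0 ^ 2 * x l 1 ^ 2 * z l 2 * z l 3)
      - 6 * n 0 1 * mn n 2 3 * (x l 0 * x l 1 * z l 2 * z l 3)
      + mn n 1 3 * (x l 0 * x l 0 * x l 2 * z l 3 - 6 * n 0 2 * (x l 0 * z l 3))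
      + mn n 1 2 * (x l 0 * x l 0 * x l 3 * z l 2 - 6 * n 0 3 * (x l 0 * z l 2))
      + mn n 0 3 * (x l 1 * x l 1 * x l 2 * z l 3 - 6 * n 1 2 * (x l 1 * z l 3))
      + mn n 0 2 * (x l 1 * x l 1 * x l 3 * z l 2 - 6 * n 1 3 * (x l 1 * z l 2))
      + mn n 0 1 * (x l 2 * x l 3) - 6 * n 2 3 * mn n 0 1 = 0 := by
    intro l
    have := h.rowId l
    have := h.inv l 2; have := h.inv l 3
    simp only [Fin.prod_univ_four] at *
    grind
  have S := Finset.sum_eq_zero (s := (univ : Finset (Fin 6))) fun l _ => A l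
  simp only [Finset.sum_add_distrib, Finset.sum_sub_distrib, ← Finset.mul_sum, h.xx, Nat.cast_ofNat,
    Finset.sum_const, Finset.card_univ, Fintype.card_fin, nsmul_eq_mul,
    h.xz 0 3 (by decide), h.xz 0 2 (by decide), h.xz 1 3 (by decide), h.xz 1 2 (by decide)] at S
  have U := Finset.sum_congr (rfl : (univ : Finset (Fin 6)) = univ) fun l _ => h.uMom l
  simp only [Finset.sum_add_distrib, Finset.sum_sub_distrib, ← Finset.mul_sum, h.xx] at U
  have Y := h.mix.1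
  have C1 := (h.perm (Equiv.swap 1 2)).cMom
  have C2 := (h.perm ((Equiv.swap 2 3).trans (Equiv.swap 1 3))).cMom
  have C3 := (h.perm ((Equiv.swap 1 2).trans (Equiv.swap 0 1))).cMom
  have C4 := (h.perm (((Equiv.swap 2 3).trans (Equiv.swap 1 3)).trans (Equiv.swap 0 1))).cMom
  have T1 := (h.perm (Equiv.swap 0 1)).tMom
  have T2 := h.tMom
  have T3 := (h.perm ((Equiv.swap 2 3).trans (Equiv.swap 0 1))).tMom
  have T4 := (h.perm (Equiv.swap 2 3)).tMom
  have K3 := h.kLaw3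
  have K2 := (h.perm (Equiv.swap 2 3)).kLaw3
  have K1 := (h.perm (Equiv.swap 1 3)).kLaw3
  have K0 := (h.perm (Equiv.swap 0 3)).kLaw3
  simp only [F_perm, Q_perm] at C1 C2 C3 C4 T1 T2 T3 T4 K3 K2 K1 K0
  simp only [Equiv.trans_apply, Equiv.swap_apply_def, Fin.reduceEq, if_false, if_true,
    ite_self] at C1 C2 C3 C4 T1 T2 T3 T4 K3 K2 K1 K0
  have Z := h.zzMom
  have X6 := h.sixMom
  rw [Fin.sum_univ_four] at X6 ⊢
  simp only [cof, d3, Matrix.cons_val, mn, h.symm 1 0, h.symm 2 0, h.symm 3 0, h.symm 2 1,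
    h.symm 3 1, h.symm 3 2] at S U Y C1 C2 C3 C4 T1 T2 T3 T4 K0 K1 K2 K3 Z X6 ⊢
  linear_combination (-1 / 2 : ℂ) * S + (1 / 2 : ℂ) * U + X6
    - (n 0 3 / 2) * T1 - (n 1 3 / 2) * T2 - (n 0 2 / 2) * T3 - (n 1 2 / 2) * T4
    - 3 * n 0 1 * Y + (1 / 2 : ℂ) * (C1 + C2 + C3 + C4) - (5 / 2 : ℂ) * Z
    + n 0 1 * (2 * K0 + 2 * K1 + K2 - 2 * K3)

/-- **Core of the dichotomy**: the F-weighted row products of n vanish off the diagonal. -/
theorem Sys.core (h : Sys n x z) {i j : Fin 4} (hij : i ≠ j) :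
    ∑ k, n i k * n j k * F x z k = 0 := by
  obtain ⟨σ, h0, h1⟩ : ∃ σ : Equiv.Perm (Fin 4), σ 0 = i ∧ σ 1 = j := by
    revert hij; revert i j; decide
  have := (h.perm σ).core01
  simp only [F_perm, h0, h1] at this
  rwa [Equiv.sum_comp σ fun k => n i k * n j k * F x z k] at this

/-- all four products agree -/
theorem Sys.kLaw (h : Sys n x z) (k : Fin 4) :
    n k k * F x z k = Q x - 6 * (n 0 1 * n 2 3 + n 0 2 * n 1 3 + n 0 3 * n 1 2) := by
  have := (h.perm (Equiv.swap k 3)).kLaw3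
  simp only [F_perm, Q_perm, Equiv.swap_apply_right] at this
  rw [this]
  fin_cases k <;>
    simp only [Equiv.swap_apply_def, Fin.reduceFinMk, Fin.reduceEq, Fin.zero_eta, Fin.mk_one,
      if_false, if_true, h.symm 1 0, h.symm 2 0, h.symm 3 0, h.symm 2 1, h.symm 3 1, h.symm 3 2] <;>
    ring

end Vale.Agent.P355.Dich
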