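import Vale.Agent.P355.Dich.Defs

/-
P355 (A), endgame of the dichotomy. When the matrix of second moments of four gauged columns has
all entries of modulus one half and all principal minors zero, every row splits the four columns
into two equal pairs. If moreover the squares of the column ratios sum to zero, the cube of every
column ratio is constant, so that the dephased entries are cube roots of unity.
-/

open scoped BigOperators ComplexConjugate
open Finset

namespace Vale.Agent.P355.Dich

lemma mul_conj_unit {z : ℂ} (hz : ‖z‖ = 1) : z * conj z = 1 := by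
  rw [Complex.mul_conj', hz]; simp

lemma four_roots {p q r s : ℂ} (h1 : p + q + r + s = -2)
    (h2 : p ^ 2 + q ^ 2 + r ^ 2 + s ^ 2 = -2)
    (h3 : q * r * s + p * r * s + p * q * s + p * q * r = -2 * (p * q * r * s))
    (h4 : (q * r * s) ^ 2 + (p * r * s) ^ 2 + (p * q * s) ^ 2 + (p * q * r) ^ 2
      = -2 * (p * q * r * s) ^ 2) (h0 : p * q * r * s ≠ 0) : p ^ 2 + p + 1 = 0 := by
  have e2 : p * q + p * r + p * s + q * r + q * s + r * s = 3 := by
    linear_combination ((p + q + r + s - 2) / 2) * h1 - (1 / 2 : ℂ) * h2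
  have hE : p * q * r * s = 1 := by
    refine mul_left_cancel₀ h0 ?_
    linear_combination -((q * r * s + p * r * s + p * q * s + p * q * r
      - 2 * (p * q * r * s)) / 6) * h3 + (1 / 6 : ℂ) * h4 + (p * q * r * s / 3) * e2
  have : (p ^ 2 + p + 1) ^ 2 = 0 := by
    linear_combination p ^ 3 * h1 - p ^ 2 * e2 + p * h3 - (1 + 2 * p) * hE
  exact pow_eq_zero_iff two_ne_zero |>.1 this

/-- six unimodular numbers with vanishing first two power sums and a repeated value -/
lemma repeated {z : Fin 6 → ℂ} (hz : ∀ l, ‖z l‖ = 1) (h1 : ∑ l, z l = 0) (h2 : ∑ l, z l ^ 2 = 0)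
    {κ : ℂ} (hk : 2 ≤ (univ.filter fun l => z l = κ).card) :
    (univ.filter fun l => z l = κ).card ≤ 2 ∧ ∀ l, z l ^ 3 = κ ^ 3 := by
  obtain ⟨l, hl, m, hm, hlm⟩ := Finset.one_lt_card.1 hk
  simp only [mem_filter, mem_univ, true_and] at hl hm
  have hκ : κ * conj κ = 1 := hl ▸ mul_conj_unit (hz l)
  have root : ∀ i, i ≠ l → i ≠ m → (z i * conj κ) ^ 2 + z i * conj κ + 1 = 0 := by
    intro i hil him
    obtain ⟨σ, s0, s1, s2⟩ : ∃ σ : Equiv.Perm (Fin 6), σ 0 = l ∧ σ 1 = m ∧ σ 2 = i := by
      set a := Equiv.swap (0 : Fin 6) l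
      set b := Equiv.swap (1 : Fin 6) (a m)
      set c := Equiv.swap (2 : Fin 6) (b (a i))
      have hm0 : a m ≠ 0 := fun e => hlm ((Equiv.swap_apply_eq_iff.1 e).trans (Equiv.swap_apply_left _ _)).symm
      have hi0 : b (a i) ≠ 0 := fun e => hil (by
        have := (Equiv.swap_apply_eq_iff.1 e)
        rw [Equiv.swap_apply_of_ne_of_ne (by decide) hm0.symm] at this
        exact (Equiv.swap_apply_eq_iff.1 this).trans (Equiv.swap_apply_left _ _))
      have hi1 : b (a i) ≠ 1 := fun e => him (by
        have := (Equiv.swap_apply_eq_iff.1 e)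
        rw [Equiv.swap_apply_left] at this
        exact a.injective this)
      have c0 : c 0 = 0 := Equiv.swap_apply_of_ne_of_ne (by decide) hi0.symm
      have c1 : c 1 = 1 := Equiv.swap_apply_of_ne_of_ne (by decide) hi1.symm
      have b0 : b 0 = 0 := Equiv.swap_apply_of_ne_of_ne (by decide) hm0.symm
      refine ⟨(c.trans b).trans a, ?_, ?_, ?_⟩
      · simp only [Equiv.trans_apply, c0, b0]; exact Equiv.swap_apply_left _ _
      · simp only [Equiv.trans_apply, c1, b, Equiv.swap_apply_left]; exact Equiv.swap_apply_self _ _ _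
      · simp only [Equiv.trans_apply, c, Equiv.swap_apply_left]
        simp [a, b]
    set w : Fin 6 → ℂ := fun j => z (σ j) * conj κ
    have hw : ∀ j, w j * conj (w j) = 1 := fun j =>
      mul_conj_unit (by simp [w, hz, ← hl])
    have w0 : w 0 = 1 := by simp only [w, s0, hl, hκ]
    have w1 : w 1 = 1 := by simp only [w, s1, hm, hκ]
    have e1 : ∑ j, w j = 0 := by
      simp only [w, ← Finset.sum_mul, Equiv.sum_comp σ z, h1, zero_mul]
    have e2 : ∑ j, w j ^ 2 = 0 := by
      simp only [w, mul_pow, ← Finset.sum_mul, Equiv.sum_comp σ fun j => z j ^ 2, h2, zero_mul]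
    have c1 := congrArg conj e1
    have c2 := congrArg conj e2
    simp only [map_add, map_pow, map_zero, Fin.sum_univ_six, w0, w1, one_pow, map_one] at e1 e2 c1 c2
    have u2 := hw 2; have u3 := hw 3; have u4 := hw 4; have u5 := hw 5
    have := four_roots (p := w 2) (q := w 3) (r := w 4) (s := w 5) (by linear_combination e1)
      (by linear_combination e2)
      (by linear_combination (w 2 * w 3 * w 4 * w 5) * c1 - (w 3 * w 4 * w 5) * u2
        - (w 2 * w 4 * w 5) * u3 - (w 2 * w 3 * w 5) * u4 - (w 2 * w 3 * w 4) * u5)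
      (by linear_combination (w 2 * w 3 * w 4 * w 5) ^ 2 * c2
        - (w 3 * w 4 * w 5) ^ 2 * (w 2 * conj (w 2) + 1) * u2
        - (w 2 * w 4 * w 5) ^ 2 * (w 3 * conj (w 3) + 1) * u3
        - (w 2 * w 3 * w 5) ^ 2 * (w 4 * conj (w 4) + 1) * u4
        - (w 2 * w 3 * w 4) ^ 2 * (w 5 * conj (w 5) + 1) * u5) ?_
    · simpa only [w, s2] using this
    · have : ∀ j, w j ≠ 0 := fun j => left_ne_zero_of_mul_eq_one (hw j)
      simp [this]
  refine ⟨?_, fun i => ?_⟩
  · have hsub : (univ.filter fun j => z j = κ) ⊆ {l, m} := by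
      intro i hi
      simp only [mem_filter, mem_univ, true_and] at hi
      simp only [mem_insert, mem_singleton]
      by_contra hc
      push Not at hc
      have := root i hc.1 hc.2
      rw [hi, hκ] at this
      norm_num at this
    exact (card_le_card hsub).trans card_le_two
  · by_cases hil : i = l
    · rw [hil, hl]
    by_cases him : i = m
    · rw [him, hm]
    linear_combination (z i * conj κ - 1) * κ ^ 3 * root i hil him
      - z i ^ 3 * ((κ * conj κ) ^ 2 + κ * conj κ + 1) * hκ

/-- the sign pattern of the moment matrix -/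
lemma sign_form {n : Fin 4 → Fin 4 → ℂ} (hsym : ∀ i j, n i j = n j i)
    (huni : ∀ i j, ∑ k, n i k * conj (n j k) = if i = j then 1 else 0)
    (hnorm : ∀ i j, ‖n i j‖ = 1 / 2) (hmin : ∀ i j, n i j ^ 2 = n i i * n j j) :
    ∃ y : Fin 4 → ℂ, (∀ i, y i * conj (y i) = 1) ∧
      ∀ i j, n i j = y i * y j * ((if i = j then 1 else 0) - 1 / 2) := by
  obtain ⟨t, ht⟩ := IsAlgClosed.exists_pow_nat_eq (2 * n 0 0) (n := 2) (by norm_num)
  have htn : ‖t‖ = 1 := by
    have := congrArg norm ht
    rw [norm_pow, norm_mul, hnorm] at this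
    norm_num at this
    rcases this with h | h
    · exact h
    · linarith [norm_nonneg t]
  have htc := mul_conj_unit htn
  set y : Fin 4 → ℂ := fun i => if i = 0 then t else -2 * n 0 i * conj t with hy
  have hy1 : ∀ i, y i * conj (y i) = 1 := fun i => mul_conj_unit (by
    simp only [hy]
    split_ifs
    · exact htn
    · simp only [norm_mul, hnorm, Complex.norm_conj, htn]; norm_num)
  have hdiag : ∀ i, y i * y i = 2 * n i i := by
    intro i
    simp only [hy]
    split_ifs with h
    · subst h; linear_combination ht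
    · linear_combination 4 * conj t ^ 2 * hmin 0 i - 2 * n i i * conj t ^ 2 * ht
        + 2 * n i i * (t * conj t + 1) * htc
  have hrow : ∀ i, i ≠ 0 → n 0 i = -(y 0 * y i / 2) := by
    intro i hi
    simp only [hy, if_neg hi, if_pos]
    linear_combination -(n 0 i) * htc
  have hs : ∀ i j, n i j = y i * y j / 2 ∨ n i j = -(y i * y j / 2) := fun i j =>
    sq_eq_sq_iff_eq_or_eq_neg.1 (by
      linear_combination hmin i j - (y j * y j / 4) * hdiag i - (n i i / 2) * hdiag j)
  have n00 : n 0 0 = y 0 * y 0 / 2 := by linear_combination -(hdiag 0) / 2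
  have key : n 1 2 = -(y 1 * y 2 / 2) ∧ n 1 3 = -(y 1 * y 3 / 2) ∧ n 2 3 = -(y 2 * y 3 / 2) := by
    have n01 := hrow 1 (by decide); have n02 := hrow 2 (by decide); have n03 := hrow 3 (by decide)
    have n11 : n 1 1 = y 1 * y 1 / 2 := by linear_combination -(hdiag 1) / 2
    have n22 : n 2 2 = y 2 * y 2 / 2 := by linear_combination -(hdiag 2) / 2
    have a := huni 0 1
    have b := huni 0 2
    simp only [Fin.sum_univ_four, hsym 1 0, hsym 2 0, hsym 2 1, Fin.reduceEq, if_false] at a b
    rw [n00, n01, n02, n03, n11] at a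
    rw [n00, n01, n02, n03, n22] at b
    have := hy1 0; have := hy1 1; have := hy1 2; have := hy1 3
    rcases hs 1 2 with e12 | e12 <;> rcases hs 1 3 with e13 | e13 <;>
      rcases hs 2 3 with e23 | e23 <;> rw [e12, e13] at a <;> rw [e12, e23] at b <;>
      simp only [map_mul, map_neg, map_div₀, map_ofNat] at a b <;>
      first | exact ⟨e12, e13, e23⟩ | (exfalso; grind)
  obtain ⟨k12, k13, k23⟩ := key
  refine ⟨y, hy1, fun i j => ?_⟩
  by_cases hij : i = j
  · subst hij; rw [if_pos rfl]; linear_combination -(hdiag i) / 2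
  rw [if_neg hij]
  have up : ∀ a b : Fin 4, a < b → n a b = -(y a * y b / 2) := by
    intro a b hab
    fin_cases a <;> fin_cases b <;>
      first
      | (simp at hab; done)
      | exact hrow _ (by decide)
      | exact k12
      | exact k13
      | exact k23
  rcases lt_or_gt_of_ne hij with h | h
  · linear_combination up i j h
  · linear_combination hsym i j + up j i h

/-- every row splits the four columns into two pairs -/
lemma row_split {n : Fin 4 → Fin 4 → ℂ} {y X : Fin 4 → ℂ} (hy : ∀ i, y i * conj (y i) = 1)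
    (hn : ∀ i j, n i j = y i * y j * ((if i = j then 1 else 0) - 1 / 2))
    (hX : ∀ i, ‖X i‖ = 1) (hrel : ∀ i, X i = ∑ k, n i k * conj (X k)) :
    let E := fun i j => X i * conj (X j) = y i * conj (y j)
    (E 0 1 ∧ E 2 3) ∨ (E 0 2 ∧ E 1 3) ∨ (E 0 3 ∧ E 1 2) := by
  intro E
  set u : Fin 4 → ℂ := fun i => X i * conj (y i) with hu
  have e : ∀ i, u i = conj (u i) - (conj (u 0) + conj (u 1) + conj (u 2) + conj (u 3)) / 2 := by
    intro i
    have := hrel i
    simp only [Fin.sum_univ_four, hn] at this
    have := hy i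
    simp only [hu, map_mul, Complex.conj_conj]
    fin_cases i <;> simp at * <;> grind
  have hn1 : ∀ i, (u i).re * (u i).re + (u i).im * (u i).im = 1 := fun i => by
    have := congrArg Complex.re (mul_conj_unit (z := u i) (by
      simp only [hu, norm_mul, hX, Complex.norm_conj]
      have := congrArg norm (hy i)
      rw [norm_mul, Complex.norm_conj, norm_one] at this
      nlinarith [norm_nonneg (y i)]))
    simpa using this
  have him : ∀ i, (u i).im = (u 0).im := fun i => by
    have a := congrArg Complex.im (e i)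
    have b := congrArg Complex.im (e 0)
    simp at a b
    linarith
  have hre : (u 0).re + (u 1).re + (u 2).re + (u 3).re = 0 := by
    have a := congrArg Complex.re (e 0)
    simp at a
    linarith
  have hc : ∀ i, (u i).re = (u 0).re ∨ (u i).re = -(u 0).re := fun i => by
    apply mul_self_eq_mul_self_iff.1
    have a := hn1 i
    rw [him i] at a
    linarith [hn1 0]
  have back : ∀ i j, (u i).re = (u j).re → E i j := fun i j hh => by
    have hij : u i = u j := Complex.ext hh ((him i).trans (him j).symm)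
    have := hy i; have := hy j
    have := mul_conj_unit (hX j)
    simp only [hu] at hij
    show X i * conj (X j) = y i * conj (y j)
    grind
  rcases hc 1 with a | a <;> rcases hc 2 with b | b <;> rcases hc 3 with c | c <;>
    first
    | (refine Or.inl ⟨back _ _ ?_, back _ _ ?_⟩ <;> linarith)
    | (refine Or.inr (Or.inl ⟨back _ _ ?_, back _ _ ?_⟩) <;> linarith)
    | (refine Or.inr (Or.inr ⟨back _ _ ?_, back _ _ ?_⟩) <;> linarith)

/-- **Endgame**: the cube of every column ratio is constant. -/
theorem cube_const {n : Fin 4 → Fin 4 → ℂ} {X : Fin 6 → Fin 4 → ℂ} (hsym : ∀ i j, n i j = n j i)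
    (huni : ∀ i j, ∑ k, n i k * conj (n j k) = if i = j then 1 else 0)
    (hnorm : ∀ i j, ‖n i j‖ = 1 / 2) (hmin : ∀ i j, n i j ^ 2 = n i i * n j j)
    (hX : ∀ l i, ‖X l i‖ = 1) (horth : ∀ i j, i ≠ j → ∑ l, X l i * conj (X l j) = 0)
    (hrel : ∀ l i, X l i = ∑ k, n i k * conj (X l k))
    (hB : ∀ i j, i ≠ j → ∑ l, (X l i * conj (X l j)) ^ 2 = 0) (i j : Fin 4) :
    ∃ κ, ∀ l, (X l i * conj (X l j)) ^ 3 = κ := by
  classical
  obtain ⟨y, hy, hn⟩ := sign_form hsym huni hnorm hmin
  let S : Fin 4 → Fin 4 → Finset (Fin 6) := fun a b =>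
    univ.filter fun l => X l a * conj (X l b) = y a * conj (y b)
  have hrep : ∀ a b, a ≠ b → 2 ≤ (S a b).card →
      (S a b).card ≤ 2 ∧ ∀ l, (X l a * conj (X l b)) ^ 3 = (y a * conj (y b)) ^ 3 :=
    fun a b hab h => repeated (z := fun l => X l a * conj (X l b))
      (fun l => by simp [hX]) (horth a b hab) (hB a b hab) h
  have hle : ∀ a b, a ≠ b → (S a b).card ≤ 2 := fun a b hab => by
    by_contra h
    exact h (hrep a b hab (by omega)).1
  have hcover : (univ : Finset (Fin 6)) ⊆ (S 0 1 ∩ S 2 3) ∪ (S 0 2 ∩ S 1 3) ∪ (S 0 3 ∩ S 1 2) := by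
    intro l _
    simp only [S, mem_union, mem_inter, mem_filter, mem_univ, true_and]
    rcases row_split hy hn (hX l) (hrel l) with h | h | h <;> tauto
  have hsix := (card_le_card hcover).trans ((card_union_le _ _).trans
    (Nat.add_le_add_right (card_union_le _ _) _))
  rw [card_univ, Fintype.card_fin] at hsix
  have two : ∀ a b, a < b → 2 ≤ (S a b).card := by
    have p := fun a b => card_le_card (inter_subset_left : S a b ∩ S (a + 2) (b + 2) ⊆ S a b)
    have := hle 0 1 (by decide); have := hle 2 3 (by decide); have := hle 0 2 (by decide)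
    have := hle 1 3 (by decide); have := hle 0 3 (by decide); have := hle 1 2 (by decide)
    have := card_le_card (inter_subset_left : S 0 1 ∩ S 2 3 ⊆ _)
    have := card_le_card (inter_subset_right : S 0 1 ∩ S 2 3 ⊆ _)
    have := card_le_card (inter_subset_left : S 0 2 ∩ S 1 3 ⊆ _)
    have := card_le_card (inter_subset_right : S 0 2 ∩ S 1 3 ⊆ _)
    have := card_le_card (inter_subset_left : S 0 3 ∩ S 1 2 ⊆ _)
    have := card_le_card (inter_subset_right : S 0 3 ∩ S 1 2 ⊆ _)
    intro a b hab
    fin_cases a <;> fin_cases b <;> simp at hab ⊢ <;> omega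
  rcases lt_trichotomy i j with h | h | h
  · exact ⟨_, (hrep i j h.ne (two i j h)).2⟩
  · subst h; exact ⟨1, fun l => by rw [mul_conj_unit (hX l i), one_pow]⟩
  · refine ⟨conj ((y j * conj (y i)) ^ 3), fun l => ?_⟩
    rw [← (hrep j i h.ne (two j i h)).2 l]
    simp only [map_pow, map_mul, Complex.conj_conj]
    ring

/-- Parseval in the basis of columns -/
lemma parseval {h : Fin 6 → Fin 6 → ℂ} (hh : Had h) (v : Fin 6 → ℂ) :
    ∑ j, Complex.normSq (∑ l, v l * conj (h l j)) = 6 * ∑ l, Complex.normSq (v l) := by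
  apply Complex.ofReal_injective
  push_cast
  simp only [← Complex.mul_conj, map_sum, map_mul, Complex.conj_conj, Finset.sum_mul_sum]
  rw [Finset.sum_comm, Finset.mul_sum]
  refine Finset.sum_congr rfl fun l _ => ?_
  rw [Finset.sum_comm]
  have e : ∀ m, ∑ j, v l * conj (h l j) * (conj (v m) * h m j)
      = v l * conj (v m) * ∑ j, h m j * conj (h l j) := fun m => by
    rw [Finset.mul_sum]; exact Finset.sum_congr rfl fun _ _ => by ring
  simp only [e]
  rw [Finset.sum_eq_single l (fun m _ hm => by rw [hh.row m l hm, mul_zero]) (by simp)]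
  simp only [mul_conj_unit (hh.unimod l _), Finset.sum_const, Finset.card_univ, Fintype.card_fin,
    nsmul_eq_mul]
  push_cast; ring

/-- with all mixed sums of modulus three, the squares of a column ratio sum to zero -/
lemma sq_ratio_zero {h : Fin 6 → Fin 6 → ℂ} (hh : Had h) {a c : Fin 6} (hac : a ≠ c)
    (h3 : ∀ j, j ≠ a → j ≠ c → ‖colQ h c j a a‖ = 3) :
    ∑ l, (h l a * conj (h l c)) ^ 2 = 0 := by
  have P := parseval hh (fun l => h l a * h l a * conj (h l c))
  simp only [Complex.normSq_eq_norm_sq, norm_mul, Complex.norm_conj, hh.unimod, Finset.sum_const,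
    Finset.card_univ, Fintype.card_fin, one_mul, one_pow, nsmul_eq_mul] at P
  have ea : ∑ l, h l a * h l a * conj (h l c) * conj (h l a) = 0 := by
    rw [← hh.col a c hac]
    exact Finset.sum_congr rfl fun l _ => by
      linear_combination (h l a * conj (h l c)) * mul_conj_unit (hh.unimod l a)
  have ej : ∀ j ∈ (univ.erase a).erase c,
      ‖∑ l, h l a * h l a * conj (h l c) * conj (h l j)‖ ^ 2 = 9 := by
    intro j hj
    simp only [mem_erase, mem_univ, and_true] at hj
    have e : ∑ l, h l a * h l a * conj (h l c) * conj (h l j) = conj (colQ h c j a a) := by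
      simp only [colQ, map_sum, map_mul, Complex.conj_conj]
      exact Finset.sum_congr rfl fun l _ => by ring
    rw [e, Complex.norm_conj, h3 j hj.2 hj.1]; norm_num
  rw [← Finset.add_sum_erase _ _ (mem_univ a), ea, ← Finset.add_sum_erase _ _
    (mem_erase.2 ⟨hac.symm, mem_univ c⟩), Finset.sum_congr rfl ej] at P
  simp only [Finset.sum_const, card_erase_of_mem (mem_erase.2 ⟨hac.symm, mem_univ c⟩),
    card_erase_of_mem (mem_univ a), card_univ, Fintype.card_fin, nsmul_eq_mul, norm_zero] at P
  norm_num at P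
  rw [← P]
  exact Finset.sum_congr rfl fun l _ => by ring

end Vale.Agent.P355.Dich
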