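import Mathlib

/-!
# P355 (A): from `n D⁻¹ n` diagonal to `|n i j| = 1/2` (helper94)

`n` is a symmetric unitary `4 × 4` matrix with nonzero diagonal and
`∑ k, n i k * n j k / n k k = 0` for `i ≠ j`, and `X` is a `6 × 4` unimodular matrix with orthogonal
columns and `X l = n * conj (X l)` for every row `l`. Then every entry of `n` has modulus `1/2` and
all principal `2 × 2` minors vanish. Algebra alone leaves two further shapes (diagonal, `3 + 1`);
both are excluded by the six rows.
-/

namespace Vale.Agent.P355.Dich.Reflect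

open ComplexConjugate

/-- Three sign vectors of length six are not pairwise orthogonal. -/
theorem no_three_signs (a b c : Fin 6 → ℝ) (ha : ∀ l, a l = 1 ∨ a l = -1)
    (hb : ∀ l, b l = 1 ∨ b l = -1) (hc : ∀ l, c l = 1 ∨ c l = -1)
    (hab : ∑ l, a l * b l = 0) (hac : ∑ l, a l * c l = 0) (hbc : ∑ l, b l * c l = 0) :
    False := by
  have hv : ∀ l, ∃ m : ℕ, (1 + a l * b l) * (1 + a l * c l) = 4 * (m : ℝ) := by
    intro l
    rcases ha l with h1 | h1 <;> rcases hb l with h2 | h2 <;> rcases hc l with h3 | h3 <;>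
      rw [h1, h2, h3] <;> first
        | (refine ⟨0, ?_⟩; norm_num; done)
        | (refine ⟨1, ?_⟩; norm_num; done)
  choose m hm using hv
  have h6 : ∑ l, (1 + a l * b l) * (1 + a l * c l) = 6 := by
    have e : ∀ l, (1 + a l * b l) * (1 + a l * c l) = 1 + a l * b l + a l * c l + b l * c l := by
      intro l
      rcases ha l with h1 | h1 <;> rw [h1] <;> ring
    simp only [e, Finset.sum_add_distrib, hab, hac, hbc]
    simp
  simp only [hm, ← Finset.mul_sum] at h6
  have h6' : ((4 * ∑ l, m l : ℕ) : ℝ) = ((6 : ℕ) : ℝ) := by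
    push_cast
    exact_mod_cast h6
  have : 4 * ∑ l, m l = 6 := Nat.cast_injective h6'
  omega

/-- The real gauge of the hypotheses. -/
structure Real4 (M : Fin 4 → Fin 4 → ℝ) : Prop where
  sym : ∀ i j, M i j = M j i
  orth : ∀ i j, ∑ k, M i k * M j k = if i = j then 1 else 0
  pos : ∀ i, 0 < M i i
  eqd : ∀ i j, M i j ≠ 0 → M i i = M j j

theorem Real4.perm {M : Fin 4 → Fin 4 → ℝ} (h : Real4 M) (σ : Equiv.Perm (Fin 4)) :
    Real4 (fun i j => M (σ i) (σ j)) := by
  refine ⟨fun i j => h.sym _ _, fun i j => ?_, fun i => h.pos _, fun i j hij => h.eqd _ _ hij⟩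
  rw [Equiv.sum_comp σ (fun k => M (σ i) k * M (σ j) k), h.orth]
  simp [σ.injective.eq_iff]

/-- A vanishing entry `M 0 1` isolates `0` or `1`. -/
theorem zero01 {M : Fin 4 → Fin 4 → ℝ} (h : Real4 M) (ha : M 0 1 = 0) :
    (M 0 2 = 0 ∧ M 0 3 = 0) ∨ (M 1 2 = 0 ∧ M 1 3 = 0) := by
  have p : ∀ i, 0 < M i i := h.pos
  have e := fun i j => h.orth i j
  have s := h.sym
  have h01 := e 0 1
  have h02 := e 0 2
  have h03 := e 0 3
  have h12 := e 1 2
  have h13 := e 1 3
  simp only [Fin.sum_univ_four, s 1 0, s 2 0, s 2 1, s 3 0, s 3 1, s 3 2, ha] at h01 h02 h03 h12 h13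
  simp [Fin.ext_iff] at h01 h02 h03 h12 h13
  by_contra hc
  rw [not_or, not_and_or, not_and_or] at hc
  obtain ⟨hb, hb'⟩ := hc
  have b0 : M 0 2 ≠ 0 := by
    intro hz
    rcases hb with hh | hh
    · exact hh hz
    · have : M 0 3 * (M 0 0 + M 3 3) = 0 := by rw [hz] at h03; linarith
      rcases mul_eq_zero.1 this with h' | h'
      · exact hh h'
      · linarith [p 0, p 3]
  have c0 : M 0 3 ≠ 0 := by
    intro hz
    have : M 0 2 * (M 0 0 + M 2 2) = 0 := by rw [hz] at h02; linarith
    rcases mul_eq_zero.1 this with h' | h'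
    · exact b0 h'
    · linarith [p 0, p 2]
  have b1 : M 1 2 ≠ 0 := by
    intro hz
    rcases hb' with hh | hh
    · exact hh hz
    · have : M 1 3 * (M 1 1 + M 3 3) = 0 := by rw [hz] at h13; linarith
      rcases mul_eq_zero.1 this with h' | h'
      · exact hh h'
      · linarith [p 1, p 3]
  have key : M 0 2 * M 1 2 * ((M 0 0 + M 2 2) * (M 1 1 + M 2 2) + M 2 3 ^ 2) = 0 := by
    linear_combination M 1 2 * (M 1 1 + M 2 2) * h02 - M 0 3 * M 2 3 * h12 + M 2 3 ^ 2 * h01
  rcases mul_eq_zero.1 key with h' | h'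
  · exact mul_ne_zero b0 b1 h'
  · nlinarith [sq_nonneg (M 2 3), mul_pos (add_pos (p 0) (p 2)) (add_pos (p 1) (p 2))]

/-- The algebra of the all-nonzero case. -/
theorem nonzero_case {a b e a' b' e' c : ℝ} (hc : 0 < c) (na : a ≠ 0) (nb : b ≠ 0) (ne : e ≠ 0)
    (f01 : 2 * c * a + b * e' + e * b' = 0) (f02 : 2 * c * b + a * e' + e * a' = 0)
    (f03 : 2 * c * e + a * b' + b * a' = 0) (f23 : 2 * c * a' + b * e + e' * b' = 0)
    (f13 : 2 * c * b' + a * e + e' * a' = 0) (f12 : 2 * c * e' + a * b + b' * a' = 0)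
    (r0 : c ^ 2 + a ^ 2 + b ^ 2 + e ^ 2 = 1) (r1 : a ^ 2 + c ^ 2 + e' ^ 2 + b' ^ 2 = 1)
    (r2 : b ^ 2 + e' ^ 2 + c ^ 2 + a' ^ 2 = 1) (r3 : e ^ 2 + b' ^ 2 + a' ^ 2 + c ^ 2 = 1) :
    c = 1 / 2 ∧ a ^ 2 = c ^ 2 ∧ b ^ 2 = c ^ 2 ∧ e ^ 2 = c ^ 2 ∧
      a' ^ 2 = c ^ 2 ∧ b' ^ 2 = c ^ 2 ∧ e' ^ 2 = c ^ 2 := by
  have sa : a' ^ 2 = a ^ 2 := by linarith
  have sb : b' ^ 2 = b ^ 2 := by linarith
  have se : e' ^ 2 = e ^ 2 := by linarith
  have hA : a ^ 2 = c ^ 2 ∧ b ^ 2 = c ^ 2 ∧ e ^ 2 = c ^ 2 := by
    rcases sq_eq_sq_iff_eq_or_eq_neg.1 sa with h | h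
    · subst h
      -- same sign forces the same sign for the other two pairs
      have hb : b' = b := by
        rcases sq_eq_sq_iff_eq_or_eq_neg.1 sb with h | h
        · exact h
        · exfalso
          subst h
          rcases sq_eq_sq_iff_eq_or_eq_neg.1 se with h | h <;> subst h
          · exact (mul_ne_zero (mul_ne_zero two_ne_zero hc.ne') na) (by linarith)
          · exact (mul_ne_zero (mul_ne_zero two_ne_zero hc.ne') nb) (by linarith)
      subst hb
      have he : e' = e := by
        rcases sq_eq_sq_iff_eq_or_eq_neg.1 se with h | h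
        · exact h
        · exfalso
          subst h
          exact (mul_ne_zero (mul_ne_zero two_ne_zero hc.ne') na) (by linarith)
      subst he
      have ea : a' * c = -(b' * e') := by linarith
      have eb : b' * c = -(a' * e') := by linarith
      have ee : e' * c = -(a' * b') := by linarith
      refine ⟨?_, ?_, ?_⟩
      · have : b' * (a' ^ 2 - c ^ 2) = 0 := by linear_combination a' * ee - c * eb
        have := (mul_eq_zero.1 this).resolve_left nb; linarith
      · have : a' * (b' ^ 2 - c ^ 2) = 0 := by linear_combination b' * ee - c * ea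
        have := (mul_eq_zero.1 this).resolve_left na; linarith
      · have : a' * (e' ^ 2 - c ^ 2) = 0 := by linear_combination e' * eb - c * ea
        have := (mul_eq_zero.1 this).resolve_left na; linarith
    · subst h
      have hb : b' = -b := by
        rcases sq_eq_sq_iff_eq_or_eq_neg.1 sb with h | h
        · exfalso
          subst h
          rcases sq_eq_sq_iff_eq_or_eq_neg.1 se with h | h <;> subst h
          · exact (mul_ne_zero (mul_ne_zero two_ne_zero hc.ne') ne) (by linarith)
          · exact (mul_ne_zero (mul_ne_zero two_ne_zero hc.ne') na) (by linarith)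
        · exact h
      subst hb
      have he : e' = -e := by
        rcases sq_eq_sq_iff_eq_or_eq_neg.1 se with h | h
        · exfalso
          subst h
          exact (mul_ne_zero (mul_ne_zero two_ne_zero hc.ne') na) (by linarith)
        · exact h
      subst he
      have ea : a * c = b * e := by linarith
      have eb : b * c = a * e := by linarith
      have ee : e * c = a * b := by linarith
      refine ⟨?_, ?_, ?_⟩
      · have : b * (a ^ 2 - c ^ 2) = 0 := by linear_combination -a * ee - c * eb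
        have := (mul_eq_zero.1 this).resolve_left nb; linarith
      · have : a * (b ^ 2 - c ^ 2) = 0 := by linear_combination -b * ee - c * ea
        have := (mul_eq_zero.1 this).resolve_left na; linarith
      · have : a * (e ^ 2 - c ^ 2) = 0 := by linear_combination -e * eb - c * ea
        have := (mul_eq_zero.1 this).resolve_left na; linarith
  obtain ⟨A, B, E⟩ := hA
  have h4 : c ^ 2 = (1 / 2 : ℝ) ^ 2 := by linarith
  exact ⟨(sq_eq_sq₀ hc.le (by norm_num)).1 h4, A, B, E, by linarith, by linarith, by linarith⟩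

/-- Three equal moduli with vanishing sum. -/
theorem three_zero {x y z : ℝ} (h : x + y + z = 0) (h1 : x ^ 2 = y ^ 2) (h2 : x ^ 2 = z ^ 2) :
    x = 0 ∧ y = 0 := by
  have hz : z = -(x + y) := by linarith
  subst hz
  have : x * (x + 2 * y) = 0 := by nlinarith
  rcases mul_eq_zero.1 this with h' | h'
  · subst h'; exact ⟨rfl, by simpa using h1.symm⟩
  · have hx : x = -2 * y := by linarith
    subst hx
    have : y ^ 2 = 0 := by linarith
    have hy : y = 0 := by simpa using this
    subst hy; simp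

/-- The algebra of the `3 + 1` block: the columns `1` and `2` are proportional. -/
theorem block_row {a b x1 x2 x3 y1 y2 y3 : ℝ} (A : a ^ 2 = 4 / 9) (B : b ^ 2 = 4 / 9)
    (X1 : x1 = 1 / 3 * x1 + a * x2 + b * x3)
    (Y1 : y1 = -(1 / 3 * y1 + a * y2 + b * y3))
    (Y2 : y2 = -(a * y1 + 1 / 3 * y2 + -(3 / 2) * a * b * y3))
    (n1 : x1 ^ 2 + y1 ^ 2 = 1) (n2 : x2 ^ 2 + y2 ^ 2 = 1) (n3 : x3 ^ 2 + y3 ^ 2 = 1) :
    x2 = -(3 / 2) * a * x1 ∧ y2 = -(3 / 2) * a * y1 := by
  have s1 : x1 + -(3 / 2) * a * x2 + -(3 / 2) * b * x3 = 0 := by linear_combination (3 / 2 : ℝ) * X1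
  have t1 : 2 * y1 = -(3 / 2) * a * y2 + -(3 / 2) * b * y3 := by linear_combination (3 / 2 : ℝ) * Y1
  have t2 : 2 * (-(3 / 2) * a * y2) = y1 + -(3 / 2) * b * y3 := by
    linear_combination (-(9 / 4) * a) * Y2 + (9 / 4 * y1 - 27 / 8 * b * y3) * A
  have v2 : -(3 / 2) * a * y2 = y1 := by linarith
  have v3 : -(3 / 2) * b * y3 = y1 := by linarith
  have w2 : (-(3 / 2) * a * x2) ^ 2 + (-(3 / 2) * a * y2) ^ 2 = 1 := by
    linear_combination (9 / 4 * (x2 ^ 2 + y2 ^ 2)) * A + n2
  have w3 : (-(3 / 2) * b * x3) ^ 2 + (-(3 / 2) * b * y3) ^ 2 = 1 := by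
    linear_combination (9 / 4 * (x3 ^ 2 + y3 ^ 2)) * B + n3
  rw [v2] at w2
  rw [v3] at w3
  obtain ⟨z1, z2⟩ := three_zero s1 (by linarith) (by linarith)
  have a0 : a ≠ 0 := by intro h0; rw [h0] at A; norm_num at A
  have x20 : x2 = 0 := (mul_eq_zero.1 z2).resolve_left (mul_ne_zero (by norm_num) a0)
  refine ⟨by rw [x20, z1, mul_zero], ?_⟩
  linear_combination (-(3 / 2) * a) * v2 - (9 / 4 * y2) * A

/-- Either all entries have modulus `1/2`, or some index is isolated. -/
theorem half_or_isolated {M : Fin 4 → Fin 4 → ℝ} (h : Real4 M) :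
    ((∀ i j, |M i j| = 1 / 2) ∧ ∀ i j, M i j ^ 2 = M i i * M j j) ∨
      ∃ σ : Equiv.Perm (Fin 4), ∀ k, k ≠ 0 → M (σ 0) (σ k) = 0 := by
  by_cases hz : ∃ i j, i ≠ j ∧ M i j = 0
  · right
    obtain ⟨i, j, hij, hz⟩ := hz
    set τ : Equiv.Perm (Fin 4) := (Equiv.swap 1 (Equiv.swap 0 i j)).trans (Equiv.swap 0 i) with hτ
    have hj0 : Equiv.swap 0 i j ≠ 0 := by
      intro hh
      apply hij
      have := congrArg (Equiv.swap 0 i) hh
      rw [Equiv.swap_apply_self, Equiv.swap_apply_left] at this
      exact this.symm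
    have t0 : τ 0 = i := by
      simp only [hτ, Equiv.trans_apply]
      rw [Equiv.swap_apply_of_ne_of_ne (by decide) hj0.symm, Equiv.swap_apply_left]
    have t1 : τ 1 = j := by
      simp only [hτ, Equiv.trans_apply]
      rw [Equiv.swap_apply_left, Equiv.swap_apply_self]
    have h01 : M (τ 0) (τ 1) = 0 := by rw [t0, t1]; exact hz
    rcases zero01 (h.perm τ) h01 with ⟨u, v⟩ | ⟨u, v⟩
    · refine ⟨τ, fun k hk => ?_⟩
      fin_cases k
      · exact absurd rfl hk
      · exact h01
      · exact u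
      · exact v
    · refine ⟨(Equiv.swap 0 1).trans τ, fun k hk => ?_⟩
      fin_cases k
      · exact absurd rfl hk
      · show M (τ (Equiv.swap 0 1 0)) (τ (Equiv.swap 0 1 1)) = 0
        rw [Equiv.swap_apply_left, Equiv.swap_apply_right, h.sym]; exact h01
      · show M (τ (Equiv.swap 0 1 0)) (τ (Equiv.swap 0 1 2)) = 0
        rw [Equiv.swap_apply_left, Equiv.swap_apply_of_ne_of_ne (by decide) (by decide)]; exact u
      · show M (τ (Equiv.swap 0 1 0)) (τ (Equiv.swap 0 1 3)) = 0
        rw [Equiv.swap_apply_left, Equiv.swap_apply_of_ne_of_ne (by decide) (by decide)]; exact v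
  · left
    push Not at hz
    have ne : ∀ i j, i ≠ j → M i j ≠ 0 := hz
    have d : ∀ i, M i i = M 0 0 := by
      intro i
      by_cases hi : i = 0
      · rw [hi]
      · exact h.eqd i 0 (ne i 0 hi)
    have s := h.sym
    have q00 := h.orth 0 0
    have q11 := h.orth 1 1
    have q22 := h.orth 2 2
    have q33 := h.orth 3 3
    have q01 := h.orth 0 1
    have q02 := h.orth 0 2
    have q03 := h.orth 0 3
    have q23 := h.orth 2 3
    have q13 := h.orth 1 3
    have q12 := h.orth 1 2
    simp only [Fin.sum_univ_four, s 1 0, s 2 0, s 2 1, s 3 0, s 3 1, s 3 2, d 1, d 2, d 3]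
      at q00 q11 q22 q33 q01 q02 q03 q23 q13 q12
    simp [Fin.ext_iff] at q00 q11 q22 q33 q01 q02 q03 q23 q13 q12
    obtain ⟨hhalf, A, B, E, A', B', E'⟩ := nonzero_case (h.pos 0)
      (ne 0 1 (by decide)) (ne 0 2 (by decide)) (ne 0 3 (by decide))
      (e' := M 1 2) (b' := M 1 3) (a' := M 2 3)
      (by linarith) (by linarith) (by linarith) (by linarith) (by linarith) (by linarith)
      (by linarith) (by linarith) (by linarith) (by linarith)
    rw [hhalf] at A B E A' B' E'
    have main : ∀ i j, M i j ^ 2 = 1 / 4 := by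
      intro i j
      fin_cases i <;> fin_cases j <;>
        simp [hhalf, s 1 0, s 2 0, s 2 1, s 3 0, s 3 1, s 3 2, d 1, d 2, d 3] <;> linarith
    refine ⟨fun i j => ?_, fun i j => ?_⟩
    · have : |M i j| ^ 2 = (1 / 2 : ℝ) ^ 2 := by rw [sq_abs, main]; norm_num
      exact (sq_eq_sq₀ (abs_nonneg _) (by norm_num)).1 this
    · rw [main, d i, d j, hhalf]; norm_num

/-- The six rows exclude an isolated index. -/
theorem no_isolated {M : Fin 4 → Fin 4 → ℝ} (h : Real4 M) (Z : Fin 6 → Fin 4 → ℂ)
    (hZ : ∀ l k, ‖Z l k‖ = 1) (horth : ∀ i j, i ≠ j → ∑ l, Z l i * conj (Z l j) = 0)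
    (hrel : ∀ l i, Z l i = ∑ k, (M i k : ℂ) * conj (Z l k))
    (hiso : ∀ k, k ≠ 0 → M 0 k = 0) : False := by
  have s := h.sym
  have p : ∀ i, 0 < M i i := h.pos
  have a0 := hiso 1 (by decide)
  have b0 := hiso 2 (by decide)
  have c0 := hiso 3 (by decide)
  have q00 := h.orth 0 0
  have q11 := h.orth 1 1
  have q22 := h.orth 2 2
  have q33 := h.orth 3 3
  have q12 := h.orth 1 2
  have q13 := h.orth 1 3
  have q23 := h.orth 2 3
  simp only [Fin.sum_univ_four, s 1 0, s 2 0, s 2 1, s 3 0, s 3 1, s 3 2, a0, b0, c0]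
    at q00 q11 q22 q33 q12 q13 q23
  simp [Fin.ext_iff] at q00 q11 q22 q33 q12 q13 q23
  have one0 : M 0 0 = 1 := by nlinarith [p 0]
  have nrm : ∀ l k, (Z l k).re ^ 2 + (Z l k).im ^ 2 = 1 := by
    intro l k
    have := Complex.sq_norm (Z l k)
    rw [hZ, Complex.normSq_apply] at this
    nlinarith
  have R : ∀ l i, (Z l i).re = ∑ k, M i k * (Z l k).re ∧
      (Z l i).im = -∑ k, M i k * (Z l k).im := by
    intro l i
    constructor
    · conv_lhs => rw [hrel l i]
      simp [Fin.sum_univ_four]
    · conv_lhs => rw [hrel l i]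
      simp [Fin.sum_univ_four]
      ring
  by_cases hbe : M 1 2 = 0 ∨ M 1 3 = 0 ∨ M 2 3 = 0
  · -- identity: three orthogonal sign vectors of length six
    have z12 : M 1 2 = 0 := by
      rcases hbe with hz | hz | hz
      · exact hz
      · have : M 1 2 * (M 1 1 + M 2 2) = 0 := by rw [hz] at q12; linarith
        exact (mul_eq_zero.1 this).resolve_right (by linarith [p 1, p 2])
      · have : M 1 2 * (M 1 1 + M 2 2) = 0 := by rw [hz] at q12; linarith
        exact (mul_eq_zero.1 this).resolve_right (by linarith [p 1, p 2])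
    have z13 : M 1 3 = 0 := by
      have : M 1 3 * (M 1 1 + M 3 3) = 0 := by rw [z12] at q13; linarith
      exact (mul_eq_zero.1 this).resolve_right (by linarith [p 1, p 3])
    have z23 : M 2 3 = 0 := by
      have : M 2 3 * (M 2 2 + M 3 3) = 0 := by rw [z12] at q23; linarith
      exact (mul_eq_zero.1 this).resolve_right (by linarith [p 2, p 3])
    rw [z12, z13] at q11
    rw [z12, z23] at q22
    have one1 : M 1 1 = 1 := by nlinarith [p 1]
    have one2 : M 2 2 = 1 := by nlinarith [p 2]
    have im0 : ∀ l, (Z l 0).im = 0 ∧ (Z l 1).im = 0 ∧ (Z l 2).im = 0 := by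
      intro l
      have r0 := (R l 0).2
      have r1 := (R l 1).2
      have r2 := (R l 2).2
      simp only [Fin.sum_univ_four, s 1 0, s 2 0, s 2 1, a0, b0, c0, one0, one1, one2, z12, z13,
        z23] at r0 r1 r2
      exact ⟨by linarith, by linarith, by linarith⟩
    have sgn : ∀ l k, (Z l k).im = 0 → (Z l k).re = 1 ∨ (Z l k).re = -1 := by
      intro l k hk
      have := nrm l k
      rw [hk] at this
      exact sq_eq_one_iff.1 (by linarith)
    have dot : ∀ i j, i ≠ j → (∀ l, (Z l i).im = 0) →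
        ∑ l, (Z l i).re * (Z l j).re = 0 := by
      intro i j hij hi
      have := congrArg Complex.re (horth i j hij)
      simpa [hi] using this
    exact no_three_signs (fun l => (Z l 0).re) (fun l => (Z l 1).re) (fun l => (Z l 2).re)
      (fun l => sgn l 0 (im0 l).1) (fun l => sgn l 1 (im0 l).2.1) (fun l => sgn l 2 (im0 l).2.2)
      (dot 0 1 (by decide) (fun l => (im0 l).1)) (dot 0 2 (by decide) (fun l => (im0 l).1))
      (dot 1 2 (by decide) (fun l => (im0 l).2.1))
  · -- a `3 + 1` block: two columns are proportional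
    rw [not_or, not_or] at hbe
    obtain ⟨na, nb, nc⟩ := hbe
    have e12 := h.eqd 1 2 na
    have e13 := h.eqd 1 3 nb
    have r1' := fun l => R l 1
    have r2' := fun l => R l 2
    have r3' := fun l => R l 3
    simp only [Fin.sum_univ_four, s 1 0, s 2 0, s 2 1, s 3 0, s 3 1, s 3 2, a0, b0, c0,
      ← e12, ← e13, zero_mul, zero_add] at r1' r2' r3'
    rw [← e12] at q12 q22
    rw [← e13] at q13 q33
    rw [← e12, ← e13] at q23
    have cp := p 1
    generalize hc : M 1 1 = c at *
    generalize hva : M 1 2 = a at *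
    generalize hvb : M 1 3 = b at *
    generalize hve : M 2 3 = e at *
    have A : a ^ 2 = 4 * c ^ 2 := by
      have : b * e * (a ^ 2 - 4 * c ^ 2) = 0 := by
        linear_combination (a * e) * q23 - (2 * c * e) * q13
      exact sub_eq_zero.1 ((mul_eq_zero.1 this).resolve_left (mul_ne_zero nb nc))
    have hc3 : c = 1 / 3 := by
      have B : b ^ 2 = 4 * c ^ 2 := by
        have hab : (a ^ 2 - b ^ 2) * (2 * c) = 0 := by linear_combination a * q12 - b * q13
        have := (mul_eq_zero.1 hab).resolve_right (by linarith)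
        linarith
      have : c ^ 2 = (1 / 3 : ℝ) ^ 2 := by linarith
      exact (sq_eq_sq₀ cp.le (by norm_num)).1 this
    subst hc3
    have A' : a ^ 2 = 4 / 9 := by rw [A]; norm_num
    have B' : b ^ 2 = 4 / 9 := by
      have hab : a ^ 2 * (2 / 3) = b ^ 2 * (2 / 3) := by linear_combination a * q12 - b * q13
      linarith
    have he : e = -(3 / 2) * a * b := by linear_combination (3 / 2 : ℝ) * q23
    subst he
    have prop : ∀ l, (Z l 2).re = -(3 / 2) * a * (Z l 1).re ∧
        (Z l 2).im = -(3 / 2) * a * (Z l 1).im := fun l =>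
      block_row A' B' (by linarith [(r1' l).1]) (by linarith [(r1' l).2]) (by linarith [(r2' l).2])
        (nrm l 1) (nrm l 2) (nrm l 3)
    have hzero := horth 2 1 (by decide)
    have step : ∀ l, Z l 2 * conj (Z l 1) = ((-(3 / 2) * a : ℝ) : ℂ) := by
      intro l
      have n1 := nrm l 1
      apply Complex.ext
      · simp [(prop l).1, (prop l).2]; linear_combination (-(3 / 2) * a) * n1
      · simp [(prop l).1, (prop l).2]; ring
    simp only [step] at hzero
    simp at hzero
    exact na hzero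

/-- Main statement. -/
theorem reflect (n : Fin 4 → Fin 4 → ℂ) (X : Fin 6 → Fin 4 → ℂ)
    (hsym : ∀ i j, n i j = n j i)
    (huni : ∀ i j, ∑ k, n i k * conj (n j k) = if i = j then 1 else 0)
    (hd : ∀ k, n k k ≠ 0)
    (hkey : ∀ i j, i ≠ j → ∑ k, n i k * n j k / n k k = 0)
    (hX : ∀ l k, ‖X l k‖ = 1)
    (horth : ∀ i j, i ≠ j → ∑ l, X l i * conj (X l j) = 0)
    (hrel : ∀ l i, X l i = ∑ k, n i k * conj (X l k)) :
    (∀ i j, ‖n i j‖ = 1 / 2) ∧ ∀ i j, n i j ^ 2 = n i i * n j j := by
  -- `n i l * conj (n i i) = n l l * conj (n i l)`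
  have star : ∀ i l, n i l * conj (n i i) = n l l * conj (n i l) := by
    intro i l
    have lhs : ∀ l, ∑ j, (∑ k, n i k * n j k / n k k) * conj (n j l) = n i l / n l l := by
      intro l
      calc ∑ j, (∑ k, n i k * n j k / n k k) * conj (n j l)
          = ∑ j, ∑ k, n i k / n k k * (n j k * conj (n j l)) := by
            refine Finset.sum_congr rfl (fun j _ => ?_)
            rw [Finset.sum_mul]
            exact Finset.sum_congr rfl (fun k _ => by ring)
        _ = ∑ k, n i k / n k k * ∑ j, n k j * conj (n l j) := by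
            rw [Finset.sum_comm]
            refine Finset.sum_congr rfl (fun k _ => ?_)
            rw [Finset.mul_sum]
            exact Finset.sum_congr rfl (fun j _ => by rw [hsym k j, hsym l j])
        _ = n i l / n l l := by simp [huni]
    have one : ∀ l, (∑ k, n i k * n i k / n k k) * conj (n i l) = n i l / n l l := by
      intro l
      rw [← lhs l]
      exact (Fintype.sum_eq_single
        (f := fun j => (∑ k, n i k * n j k / n k k) * conj (n j l)) i
        (fun j hj => by simp [hkey i j hj.symm])).symm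
    set L := ∑ k, n i k * n i k / n k k
    have h1 : L * conj (n i i) = 1 := by rw [one i, div_self (hd i)]
    have h2 : L * conj (n i l) * n l l = n i l := by rw [one l, div_mul_cancel₀ _ (hd l)]
    linear_combination (-(conj (n i i))) * h2 + (conj (n i l) * n l l) * h1
  -- phase gauge
  have hw : ∀ k, ∃ w : ℂ, ‖w‖ = 1 ∧ n k k = (‖n k k‖ : ℂ) * w ^ 2 := by
    intro k
    obtain ⟨w, hw⟩ := IsAlgClosed.exists_pow_nat_eq (n k k / (‖n k k‖ : ℂ)) two_pos
    have hne : (‖n k k‖ : ℂ) ≠ 0 := by
      simp only [ne_eq, Complex.ofReal_eq_zero, norm_eq_zero]; exact hd k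
    refine ⟨w, ?_, by rw [hw, mul_div_cancel₀ _ hne]⟩
    have h2 : ‖w‖ ^ 2 = (1 : ℝ) ^ 2 := by
      rw [← norm_pow, hw, norm_div, Complex.norm_real, norm_norm,
        div_self (norm_ne_zero_iff.2 (hd k)), one_pow]
    exact (sq_eq_sq₀ (norm_nonneg _) zero_le_one).1 h2
  choose w hw1 hwd using hw
  have hww : ∀ k, w k * conj (w k) = 1 := by
    intro k
    rw [Complex.mul_conj']
    simp [hw1]
  set N : Fin 4 → Fin 4 → ℂ := fun i j => n i j * conj (w i) * conj (w j) with hN
  have hnN : ∀ i j, n i j = N i j * w i * w j := by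
    intro i j
    calc n i j = n i j * (w i * conj (w i)) * (w j * conj (w j)) := by rw [hww, hww]; ring
      _ = N i j * w i * w j := by simp only [hN]; ring
  have hdiag : ∀ k, N k k = (‖n k k‖ : ℂ) := by
    intro k
    calc N k k = n k k * conj (w k) * conj (w k) := by simp [hN]
      _ = (‖n k k‖ : ℂ) * (w k * conj (w k)) * (w k * conj (w k)) := by
          conv_lhs => rw [hwd k]
          ring
      _ = _ := by rw [hww]; ring
  have hstarN : ∀ i l, N i l * (‖n i i‖ : ℂ) = (‖n l l‖ : ℂ) * conj (N i l) := by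
    intro i l
    have hs := star i l
    rw [hnN i l, hnN i i, hnN l l, hdiag, hdiag] at hs
    simp only [map_mul, Complex.conj_ofReal] at hs
    calc N i l * (‖n i i‖ : ℂ)
        = N i l * w i * w l * ((‖n i i‖ : ℂ) * conj (w i) * conj (w i))
            * (w i * conj (w l)) := by
          linear_combination (-(N i l * (‖n i i‖ : ℂ)) * (w i * conj (w i) + 1) *
            (w l * conj (w l))) * hww i - (N i l * (‖n i i‖ : ℂ)) * hww l
      _ = (‖n l l‖ : ℂ) * w l * w l * (conj (N i l) * conj (w i) * conj (w l))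
            * (w i * conj (w l)) := by rw [hs]
      _ = (‖n l l‖ : ℂ) * conj (N i l) := by
          linear_combination ((‖n l l‖ : ℂ) * conj (N i l) * (w l * conj (w l)) *
            (w l * conj (w l))) * hww i
            + ((‖n l l‖ : ℂ) * conj (N i l) * (w l * conj (w l) + 1)) * hww l
  have heq : ∀ i l, N i l ≠ 0 → ‖n i i‖ = ‖n l l‖ := by
    intro i l hne
    have := congrArg norm (hstarN i l)
    simp only [norm_mul, Complex.norm_real, norm_norm, RCLike.norm_conj] at this
    rw [mul_comm] at this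
    exact mul_right_cancel₀ (norm_ne_zero_iff.2 hne) this
  have hreal : ∀ i l, conj (N i l) = N i l := by
    intro i l
    by_cases hne : N i l = 0
    · simp [hne]
    · have := hstarN i l
      rw [heq i l hne, mul_comm] at this
      exact (mul_left_cancel₀ (by simp [hd l]) this).symm
  set M : Fin 4 → Fin 4 → ℝ := fun i j => (N i j).re with hM
  have hNM : ∀ i j, N i j = (M i j : ℂ) := fun i j =>
    (Complex.conj_eq_iff_re.1 (hreal i j)).symm
  have hMd : ∀ k, M k k = ‖n k k‖ := fun k => by simp [hM, hdiag]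
  have R4 : Real4 M := by
    refine ⟨fun i j => ?_, fun i j => ?_, fun k => ?_, fun i j hij => ?_⟩
    · simp only [hM, hN, hsym i j]
      rw [show n j i * conj (w i) * conj (w j) = n j i * conj (w j) * conj (w i) by ring]
    · have e : ∑ k, (M i k : ℂ) * (M j k : ℂ) = conj (w i) * w j * ∑ k, n i k * conj (n j k) := by
        rw [Finset.mul_sum]
        refine Finset.sum_congr rfl (fun k _ => ?_)
        rw [← hNM i k, ← hNM j k, ← hreal j k]
        simp only [hN, map_mul, Complex.conj_conj]
        linear_combination (n i k * conj (w i) * conj (n j k) * w j) * hww k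
      rw [huni] at e
      split_ifs with hij
      · subst hij
        rw [if_pos rfl, mul_one, mul_comm (conj (w i)), hww] at e
        exact_mod_cast e
      · rw [if_neg hij, mul_zero] at e
        exact_mod_cast e
    · rw [hMd]; exact norm_pos_iff.2 (hd k)
    · rw [hMd, hMd]
      apply heq
      rw [hNM]
      exact_mod_cast hij
  rcases half_or_isolated R4 with ⟨h1, h2⟩ | ⟨σ, hiso⟩
  · refine ⟨fun i j => ?_, fun i j => ?_⟩
    · rw [hnN i j, norm_mul, norm_mul, hw1, hw1, hNM, Complex.norm_real, Real.norm_eq_abs, h1]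
      ring
    · rw [hnN i j, hnN i i, hnN j j, hNM, hNM, hNM]
      have := congrArg (fun r : ℝ => (r : ℂ)) (h2 i j)
      push_cast at this
      linear_combination (w i * w j) ^ 2 * this
  · exfalso
    refine no_isolated (R4.perm σ) (fun l k => X l (σ k) * conj (w (σ k))) ?_ ?_ ?_ hiso
    · intro l k
      simp [hX, hw1]
    · intro i j hij
      have h0 := horth (σ i) (σ j) (fun hh => hij (σ.injective hh))
      have : ∑ l, X l (σ i) * conj (w (σ i)) * conj (X l (σ j) * conj (w (σ j)))
          = conj (w (σ i)) * w (σ j) * ∑ l, X l (σ i) * conj (X l (σ j)) := by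
        rw [Finset.mul_sum]
        refine Finset.sum_congr rfl (fun l _ => ?_)
        simp only [map_mul, Complex.conj_conj]
        ring
      rw [this, h0, mul_zero]
    · intro l i
      rw [hrel l (σ i), Finset.sum_mul, ← Equiv.sum_comp σ]
      refine Finset.sum_congr rfl (fun k _ => ?_)
      rw [← hNM]
      simp only [hN, map_mul, Complex.conj_conj]
      linear_combination (-(n (σ i) (σ k) * conj (X l (σ k)) * conj (w (σ i)))) * hww (σ k)

end Vale.Agent.P355.Dich.Reflect
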