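import Vale.Agent.P355.Dich.Connect
import Vale.Agent.P355.Dich.Reflect
import Vale.Agent.P355.Dich.Endgame
import Vale.Agent.P355.Tao.CubeRoot

/-
P355 (A), the dichotomy: a complex Hadamard matrix of order six either has all three-against-three
sums zero, over columns and over rows, or its dephased entries are cube roots of unity, and then it
is equivalent to Tao's matrix.
-/

open scoped BigOperators ComplexConjugate
open Finset

namespace Vale.Agent.P355.Dich

/-- the dephasing condition on cube roots used for Tao's matrix -/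
def CubeDephased (h : Fin 6 → Fin 6 → ℂ) : Prop :=
  ∀ l k, (h l k * h 0 0 * conj (h l 0) * conj (h 0 k)) ^ 3 = 1

/-- every pair is good: no diagonal entry and no three-against-three sum vanishes -/
def AllGood (h : Fin 6 → Fin 6 → ℂ) : Prop :=
  ∀ (e : Equiv.Perm (Fin 6)) (k : Fin 4), gN h e k k ≠ 0 ∧ gF h e k ≠ 0

variable {h : Fin 6 → Fin 6 → ℂ}

lemma half_of_good (hh : Had h) (hg : AllGood h) (e : Equiv.Perm (Fin 6)) :
    (∀ i j, ‖gN h e i j‖ = 1 / 2) ∧ ∀ i j, gN h e i j ^ 2 = gN h e i i * gN h e j j := by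
  obtain ⟨X, hS, hX, -, hF, huni⟩ := hh.gauge e
  have hd : ∀ k, gN h e k k ≠ 0 := fun k => (hg e k).1
  set G := gN h e 0 0 * gF h e 0 with hG
  have hG0 : G ≠ 0 := mul_ne_zero (hd 0) (hg e 0).2
  have hk : ∀ k, gF h e k = G / gN h e k k := fun k => by
    rw [eq_div_iff (hd k), hG, ← hF k, ← hF 0, mul_comm, hS.kLaw k, hS.kLaw 0]
  refine Reflect.reflect _ X hS.symm huni hd (fun i j hij => ?_) hX (fun i j hij => hS.xz i j hij) hS.lin
  have c := hh.core e hij
  simp only [hk] at c
  refine mul_left_cancel₀ hG0 ?_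
  rw [mul_zero, ← c, Finset.mul_sum]
  exact Finset.sum_congr rfl fun k _ => by ring

lemma colQ_norm_of_good (hh : Had h) (hg : AllGood h) {c j a : Fin 6} (hcj : c ≠ j)
    (hac : a ≠ c) (haj : a ≠ j) : ‖colQ h c j a a‖ = 3 := by
  obtain ⟨e, rfl, rfl⟩ := exists_perm hcj
  obtain ⟨k, rfl⟩ := exists_col e hac haj
  have := (half_of_good hh hg e).1 k k
  rw [gN_eq_colQ, norm_div] at this
  norm_num at this
  linarith

/-- where all pairs are good the cube of every column ratio is constant -/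
lemma colCubes_of_good (hh : Had h) (hg : AllGood h) (c d : Fin 6) :
    ∃ κ, ∀ l, (h l c * conj (h l d)) ^ 3 = κ := by
  by_cases hcd : c = d
  · subst hcd
    exact ⟨1, fun l => by rw [mul_conj_unit (hh.unimod l c), one_pow]⟩
  obtain ⟨a, b, hab, ha, hb⟩ : ∃ a b : Fin 6, a ≠ b ∧ (c ≠ a ∧ c ≠ b) ∧ (d ≠ a ∧ d ≠ b) := by
    clear hcd; revert c d; decide
  obtain ⟨e, rfl, rfl⟩ := exists_perm hab
  obtain ⟨i, rfl⟩ := exists_col e ha.1 ha.2
  obtain ⟨j, rfl⟩ := exists_col e hb.1 hb.2
  obtain ⟨X, hS, hX, hq, -, huni⟩ := hh.gauge e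
  obtain ⟨hn, hm⟩ := half_of_good hh hg e
  have hB : ∀ p q, p ≠ q → ∑ l, (X l p * conj (X l q)) ^ 2 = 0 := by
    intro p q hpq
    have hne : Dich.col e q ≠ Dich.col e p := fun he => hpq (col_injective e he).symm
    rw [← sq_ratio_zero hh hne fun m hm1 hm2 => colQ_norm_of_good hh hg hm2.symm hne hm1.symm]
    exact Finset.sum_congr rfl fun l _ => by rw [hq]; ring
  obtain ⟨κ, hκ⟩ := cube_const hS.symm huni hn hm hX (fun p q hpq => hS.xz p q hpq) hS.lin hB j i
  refine ⟨κ, fun l => ?_⟩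
  rw [← hκ l, hq]
  ring

lemma ct_or_cube (hh : Had h) : (Cert.IdentCT.CT fun i j => h j i) ∨ CubeDephased h :=
  hh.ct_or_good.imp id fun hg => Tao.cube_of_colCubes hh.unimod (colCubes_of_good hh hg)

lemma Had.transpose (hh : Had h) : Had fun i j => h j i :=
  ⟨fun l k => hh.unimod k l, fun l m hlm => hh.col l m hlm, fun k k' hk => hh.row k k' hk⟩

/-- **Dichotomy**: both families of three-against-three sums vanish, or the dephased entries are
cube roots of unity. -/
theorem dichotomy (hh : Had h) :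
    (Cert.IdentCT.CT h ∧ Cert.IdentCT.CT fun i j => h j i) ∨ CubeDephased h := by
  rcases ct_or_cube hh.transpose with hr | hr
  · exact (ct_or_cube hh).imp (fun hc => ⟨hr, hc⟩) id
  · refine Or.inr fun l k => ?_
    rw [← hr k l]
    ring

/-- the dichotomy with Tao's matrix explicit -/
theorem dichotomy_S6 (hh : Had h) :
    (Cert.IdentCT.CT h ∧ Cert.IdentCT.CT fun i j => h j i) ∨
      ∃ (p q : Fin 6 ≃ Fin 6) (a b : Fin 6 → ℂ), ∀ l k, h l k = a l * b k * Tao.S (p l) (q k) :=
  (dichotomy hh).imp id fun hc => Tao.cubeRoot_equiv hh.unimod hh.row hc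

end Vale.Agent.P355.Dich
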